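import Vale.Agent.P183.H330.Main

/-!
The extension theorems in their final form.
-/

namespace Vale.Agent.P183.H330

variable {L K : Type} [Lattice L] [Lattice K]

theorem exists_least [Finite K] [Nonempty K] : ∃ b0 : K, ∀ k, b0 ≤ k := by
  obtain ⟨b0, _, hmin⟩ := (Set.toFinite (Set.univ : Set K)).exists_minimal Set.univ_nonempty
  exact ⟨b0, fun k => (hmin (Set.mem_univ (b0 ⊓ k)) inf_le_left).trans inf_le_right⟩

theorem isMin_iff {b0 : K} (hb0 : ∀ k, b0 ≤ k) (k : K) : IsMin k ↔ k = b0 := by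
  constructor
  · intro h
    exact le_antisymm (h (hb0 k)) (hb0 k)
  · rintro rfl
    intro k _
    exact hb0 k

/-- A finite distributive fibre is an interval in the subgroup lattice of a finite group. -/
theorem fibre_interval [Finite L] (f : LatticeHom L K) (hf : Function.Surjective f) (b0 : K)
    (hd : ∀ x y z, f x = b0 → f y = b0 → f z = b0 → (x ⊓ y) ⊔ z = (x ⊔ z) ⊓ (y ⊔ z)) :
    ∃ (G : Type) (_ : Group G) (_ : Finite G) (H : Subgroup G),
      Nonempty ({l : L // f l = b0} ≃o {W : Subgroup G // H ≤ W}) := by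
  classical
  obtain ⟨lo, hi, hflo, hfhi, hlo, hhi⟩ := exists_lo_hi_fin f hf
  obtain ⟨S, hH, hT, _⟩ := exists_sp (t := b0) hflo hfhi hlo hhi hd 0
  obtain ⟨ω⟩ := S.ne
  have hXf : Finite S.X := S.fin
  have hlo' : ∀ l, f l = b0 → lo b0 ≤ l := by
    intro l hl
    have := hlo l
    rwa [hl] at this
  let V : {l : L // f l = b0} → Subgroup (isoSub S) := fun l =>
    { carrier := {g | S.d (g.1 ω) ω ≤ l.1}
      one_mem' := by
        show S.d ω ω ≤ l.1
        rw [(S.self _ _).2 rfl]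
        exact hlo' _ l.2
      mul_mem' := by
        intro g h hg hh
        show S.d (g.1 (h.1 ω)) ω ≤ l.1
        refine (S.tri _ (g.1 ω) _).trans (sup_le ?_ hg)
        rw [mem_isoSub.1 g.2]
        exact hh
      inv_mem' := by
        intro g hg
        show S.d (g.1⁻¹ ω) ω ≤ l.1
        rw [← mem_isoSub.1 g.2, app_inv, S.symm]
        exact hg }
  have hV : ∀ l (g : isoSub S), g ∈ V l ↔ S.d (g.1 ω) ω ≤ l.1 := fun _ _ => Iff.rfl
  let H : Subgroup (isoSub S) := V ⟨lo b0, hflo b0⟩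
  have hHω : ∀ g : isoSub S, g ∈ H ↔ g.1 ω = ω := by
    intro g
    rw [hV, ← S.self]
    exact ⟨fun h => le_antisymm h (hlo' _ (S.fd _ _)), fun h => h.le⟩
  refine ⟨isoSub S, inferInstance, inferInstance, H, ⟨?_⟩⟩
  refine RelIso.ofSurjective (OrderEmbedding.ofMapLEIff
    (fun l => (⟨V l, fun g hg => (hV l g).2 ((hV _ g).1 hg |>.trans (hlo' _ l.2))⟩ :
      {W : Subgroup (isoSub S) // H ≤ W})) ?_) ?_
  · intro a b
    constructor
    · intro h
      refine homog_gen hH hT ω a.1 b.1 a.2 fun g hg hga => ?_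
      exact h (show (⟨g, hg⟩ : isoSub S) ∈ V a from hga)
    · intro h g hg
      exact (show S.d (g.1 ω) ω ≤ a.1 from hg).trans h
  · rintro ⟨W, hW⟩
    obtain ⟨c, hc, hcW⟩ := homog_int hH hT ω (W.map (isoSub S).subtype) (by
      rintro _ ⟨g, _, rfl⟩
      exact g.2) (by
      intro g hg hgω
      exact ⟨⟨g, hg⟩, hW ((hHω ⟨g, hg⟩).2 hgω), rfl⟩)
    refine ⟨⟨c, hc⟩, Subtype.ext ?_⟩
    ext g
    show S.d (g.1 ω) ω ≤ c ↔ g ∈ W
    rw [← hcW g.1 g.2]
    constructor
    · rintro ⟨g', hg', h⟩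
      have : g' = g := Subtype.ext h
      rwa [this] at hg'
    · intro h
      exact ⟨g, h, rfl⟩

/-- **Extensions with distributive fibres.** -/
theorem ext_distrib [Finite L] (f : LatticeHom L K) (hf : Function.Surjective f)
    (hK : Representable K)
    (hbot : ∃ (G : Type) (_ : Group G) (_ : Finite G) (H : Subgroup G),
      Nonempty ({l : L // IsMin (f l)} ≃o {W : Subgroup G // H ≤ W}))
    (hd : ∀ x y z, f x = f y → f y = f z → ¬ IsMin (f x) → (x ⊓ y) ⊔ z = (x ⊔ z) ⊓ (y ⊔ z))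
    (hc : ∀ x y z, f x = f y → f x ≤ f z → (∃ p q, p ≤ f x ∧ q ≤ f x ∧ ¬ p ≤ q ∧ ¬ q ≤ p) →
      (x ⊓ y) ⊔ z = (x ⊔ z) ⊓ (y ⊔ z)) : Representable L := by
  have hKf : Finite K := Finite.of_surjective f hf
  have hKn : Nonempty K := hK.nonempty
  obtain ⟨b0, hb0⟩ := exists_least (K := K)
  obtain ⟨G, hG, hGf, H, ⟨θ⟩⟩ := hbot
  let e : {l : L // f l = b0} ≃o {l : L // IsMin (f l)} :=
    { toFun := fun l => ⟨l.1, (isMin_iff hb0 _).2 l.2⟩
      invFun := fun l => ⟨l.1, (isMin_iff hb0 _).1 l.2⟩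
      left_inv := fun _ => rfl
      right_inv := fun _ => rfl
      map_rel_iff' := Iff.rfl }
  exact ext_bottom hf b0 hb0 ⟨G, hG, hGf, H, ⟨e.trans θ⟩⟩
    (fun x y z h1 h2 h3 => hd x y z h1 h2 (fun h => h3 ((isMin_iff hb0 _).1 h))) hc hK

/-- Extensions all of whose fibres are distributive, with modest links. -/
theorem ext_distrib' [Finite L] (f : LatticeHom L K) (hf : Function.Surjective f)
    (hK : Representable K)
    (hd : ∀ x y z, f x = f y → f y = f z → (x ⊓ y) ⊔ z = (x ⊔ z) ⊓ (y ⊔ z))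
    (hc : ∀ x y z, f x = f y → f x ≤ f z → (∃ p q, p ≤ f x ∧ q ≤ f x ∧ ¬ p ≤ q ∧ ¬ q ≤ p) →
      (x ⊓ y) ⊔ z = (x ⊔ z) ⊓ (y ⊔ z)) : Representable L := by
  have hKf : Finite K := Finite.of_surjective f hf
  have hKn : Nonempty K := hK.nonempty
  obtain ⟨b0, hb0⟩ := exists_least (K := K)
  exact ext_bottom hf b0 hb0 (fibre_interval f hf b0 (fun x y z hx hy hz =>
    hd x y z (hx.trans hy.symm) (hy.trans hz.symm)))
    (fun x y z h1 h2 _ => hd x y z h1 h2) hc hK

/-- The dual statement. -/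
theorem ext_distrib_dual [Finite L] (f : LatticeHom L K) (hf : Function.Surjective f)
    (hK : Representable K)
    (hd : ∀ x y z, f x = f y → f y = f z → (x ⊔ y) ⊓ z = (x ⊓ z) ⊔ (y ⊓ z))
    (hc : ∀ x y z, f x = f y → f z ≤ f x → (∃ p q, f x ≤ p ∧ f x ≤ q ∧ ¬ p ≤ q ∧ ¬ q ≤ p) →
      (x ⊔ y) ⊓ z = (x ⊓ z) ⊔ (y ⊓ z)) : Representable L := by
  have h1 : Representable Lᵒᵈ := by
    let g : LatticeHom Lᵒᵈ Kᵒᵈ :=
      { toFun := fun x => OrderDual.toDual (f (OrderDual.ofDual x))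
        map_sup' := fun x y => congrArg OrderDual.toDual (map_inf f _ _)
        map_inf' := fun x y => congrArg OrderDual.toDual (map_sup f _ _) }
    have hg : Function.Surjective g := by
      intro k
      obtain ⟨l, hl⟩ := hf (OrderDual.ofDual k)
      exact ⟨OrderDual.toDual l, congrArg OrderDual.toDual hl⟩
    have hLf : Finite Lᵒᵈ := inferInstanceAs (Finite L)
    refine ext_distrib' g hg hK.dual ?_ ?_
    · intro x y z h1 h2
      exact hd (OrderDual.ofDual x) (OrderDual.ofDual y) (OrderDual.ofDual z) h1 h2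
    · rintro x y z h1 h2 ⟨p, q, hp, hq, h3, h4⟩
      exact hc (OrderDual.ofDual x) (OrderDual.ofDual y) (OrderDual.ofDual z) h1 h2
        ⟨OrderDual.ofDual p, OrderDual.ofDual q, hp, hq, h4, h3⟩
  have h2 := h1.dual
  exact h2

/-- **Extensions with chain fibres.** -/
theorem ext_chain [Finite L] (f : LatticeHom L K) (hf : Function.Surjective f)
    (hch : ∀ x y, f x = f y → x ≤ y ∨ y ≤ x) (hK : Representable K) : Representable L := by
  have key : ∀ x y z : L, f x = f y → (x ⊓ y) ⊔ z = (x ⊔ z) ⊓ (y ⊔ z) := by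
    intro x y z hxy
    rcases hch x y hxy with h | h
    · rw [inf_eq_left.2 h, inf_eq_left.2 (sup_le_sup_right h z)]
    · rw [inf_eq_right.2 h, inf_eq_right.2 (sup_le_sup_right h z)]
  exact ext_distrib' f hf hK (fun x y z h _ => key x y z h) (fun x y z h _ _ => key x y z h)

theorem representable_chain (C : Type) [Lattice C] [Finite C] [Nonempty C]
    (h : ∀ x y : C, x ≤ y ∨ y ≤ x) : Representable C := by
  let f : LatticeHom C PUnit.{1} :=
    { toFun := fun _ => PUnit.unit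
      map_sup' := fun _ _ => rfl
      map_inf' := fun _ _ => rfl }
  exact ext_chain f (fun _ => ⟨Classical.arbitrary C, rfl⟩) (fun x y _ => h x y)
    (representable_unique PUnit)

/-- **Distributive fibres over a chain.** -/
theorem over_chain [Finite L] [Nonempty L] (f : LatticeHom L K) (hf : Function.Surjective f)
    (hch : ∀ p q : K, p ≤ q ∨ q ≤ p)
    (hbot : ∃ (G : Type) (_ : Group G) (_ : Finite G) (H : Subgroup G),
      Nonempty ({l : L // IsMin (f l)} ≃o {W : Subgroup G // H ≤ W}))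
    (hd : ∀ x y z, f x = f y → f y = f z → ¬ IsMin (f x) → (x ⊓ y) ⊔ z = (x ⊔ z) ⊓ (y ⊔ z)) :
    Representable L := by
  have hKf : Finite K := Finite.of_surjective f hf
  have hKn : Nonempty K := ⟨f (Classical.arbitrary L)⟩
  refine ext_distrib f hf (representable_chain K hch) hbot hd ?_
  rintro x y z _ _ ⟨p, q, _, _, h1, h2⟩
  exact absurd (hch p q) (by push Not; exact ⟨h1, h2⟩)

end Vale.Agent.P183.H330
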