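import Vale.Agent.P183.H330.Ext
import Vale.Agent.P183.Bdl.B2
import Mathlib.Algebra.Group.Subgroup.Lattice
import Mathlib.GroupTheory.Perm.Basic
import Mathlib.Algebra.Group.Pi.Lemmas

/-!
From a system of homogeneous spaces to a representation: the monotone map into a subgroup lattice.
-/

namespace Vale.Agent.P183.H330

variable {L K : Type} [Lattice L] [Lattice K] {f : LatticeHom L K} {lo hi : K → L}

/-- The full subgroup lattice of a finite group is representable. -/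
theorem representable_subgroup (G : Type) [Group G] [Finite G] : Representable (Subgroup G) := by
  let F : Set (G → G) := {f | ∃ g : G, f = fun x => g * x}
  refine representable_of_adm (⊥ : Setoid G) F ⟨?_⟩
  let e : Subgroup G → {ρ : Setoid G // ⊥ ≤ ρ ∧ ∀ f ∈ F, ∀ b b', ρ b b' → ρ (f b) (f b')} := fun H =>
    ⟨{ r := fun x y => x⁻¹ * y ∈ H
       iseqv := ⟨fun x => by rw [inv_mul_cancel]; exact H.one_mem, fun {x y} h => by
         have := H.inv_mem h
         rwa [mul_inv_rev, inv_inv] at this, fun {x y z} h h' => by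
         have := H.mul_mem h h'
         rwa [mul_assoc, mul_inv_cancel_left] at this⟩ }, bot_le, by
      rintro _ ⟨g, rfl⟩ b b' h
      have h' : b⁻¹ * b' ∈ H := h
      show (g * b)⁻¹ * (g * b') ∈ H
      rw [mul_inv_rev, mul_assoc, inv_mul_cancel_left]
      exact h'⟩
  refine RelIso.ofSurjective (OrderEmbedding.ofMapLEIff e ?_) ?_
  · intro H H'
    constructor
    · intro h x hx
      have h1 : (e H').1 1 x := h (show (1 : G)⁻¹ * x ∈ H by simpa using hx)
      have h2 : (1 : G)⁻¹ * x ∈ H' := h1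
      simpa using h2
    · intro h x y hxy
      exact h hxy
  · rintro ⟨ρ, _, hF⟩
    have hmul : ∀ g x y, ρ x y → ρ (g * x) (g * y) := fun g x y h => hF _ ⟨g, rfl⟩ x y h
    let H : Subgroup G :=
      { carrier := {x | ρ 1 x}
        one_mem' := Setoid.refl' _ _
        mul_mem' := by
          intro a b ha hb
          have h1 := hmul a 1 b hb
          rw [mul_one] at h1
          exact Setoid.trans' _ ha h1
        inv_mem' := by
          intro a ha
          have h1 := hmul a⁻¹ 1 a ha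
          rw [mul_one, inv_mul_cancel] at h1
          exact Setoid.symm' _ h1 }
    refine ⟨H, Subtype.ext (Setoid.ext fun x y => ?_)⟩
    show ρ 1 (x⁻¹ * y) ↔ ρ x y
    constructor
    · intro h
      have := hmul x 1 _ h
      rwa [mul_one, mul_inv_cancel_left] at this
    · intro h
      have := hmul x⁻¹ x y h
      rwa [inv_mul_cancel] at this

theorem app_inv {X : Type} (g : Equiv.Perm X) (a : X) : g (g⁻¹ a) = a := g.apply_symm_apply a

section

variable (S : ∀ t, Sp f lo t) (J : ∀ t r, (S r).X → (S t).X)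
  (B : ∀ s, Subgroup (Equiv.Perm (S s).X)) (ω : ∀ s, (S s).X)

/-- Compatible families of isometries above `s`. -/
def QQ (s : K) : Subgroup (∀ t, Equiv.Perm (S t).X) where
  carrier := {x | x s ∈ B s ∧ ∀ t, s ≤ t → (∀ a b, (S t).d (x t a) (x t b) = (S t).d a b) ∧
    ∀ r, s ≤ r → r ≤ t → ∀ a, x t (J t r a) = J t r (x r a)}
  one_mem' := ⟨(B s).one_mem, fun t _ => ⟨fun _ _ => rfl, fun _ _ _ _ => rfl⟩⟩
  mul_mem' := by
    rintro x y ⟨hx1, hx⟩ ⟨hy1, hy⟩
    refine ⟨(B s).mul_mem hx1 hy1, fun t ht => ⟨fun a b => ?_, fun r hr hrt a => ?_⟩⟩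
    · show (S t).d (x t (y t a)) (x t (y t b)) = _
      rw [(hx t ht).1, (hy t ht).1]
    · show x t (y t (J t r a)) = J t r (x r (y r a))
      rw [(hy t ht).2 r hr hrt, (hx t ht).2 r hr hrt]
  inv_mem' := by
    rintro x ⟨hx1, hx⟩
    refine ⟨(B s).inv_mem hx1, fun t ht => ⟨fun a b => ?_, fun r hr hrt a => ?_⟩⟩
    · show (S t).d ((x t)⁻¹ a) ((x t)⁻¹ b) = _
      rw [← (hx t ht).1, app_inv, app_inv]
    · show (x t)⁻¹ (J t r a) = J t r ((x r)⁻¹ a)
      rw [Equiv.Perm.inv_eq_iff_eq, (hx t ht).2 r hr hrt, app_inv]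

theorem mem_QQ {s : K} {x : ∀ t, Equiv.Perm (S t).X} : x ∈ QQ S J B s ↔
    x s ∈ B s ∧ ∀ t, s ≤ t → (∀ a b, (S t).d (x t a) (x t b) = (S t).d a b) ∧
    ∀ r, s ≤ r → r ≤ t → ∀ a, x t (J t r a) = J t r (x r a) := Iff.rfl

/-- The subgroup attached to an element of the lattice. -/
def PP (hlo0 : ∀ l, lo (f l) ≤ l) (l : L) : Subgroup (∀ t, Equiv.Perm (S t).X) where
  carrier := {x | x ∈ QQ S J B (f l) ∧ (S (f l)).d (x (f l) (ω (f l))) (ω (f l)) ≤ l}
  one_mem' := ⟨(QQ S J B (f l)).one_mem, by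
    show (S (f l)).d (ω (f l)) (ω (f l)) ≤ l
    rw [((S (f l)).self _ _).2 rfl]
    exact hlo0 l⟩
  mul_mem' := by
    rintro x y ⟨hx1, hx⟩ ⟨hy1, hy⟩
    refine ⟨(QQ S J B (f l)).mul_mem hx1 hy1, ?_⟩
    show (S (f l)).d (x (f l) (y (f l) (ω (f l)))) (ω (f l)) ≤ l
    refine ((S (f l)).tri _ (x (f l) (ω (f l))) _).trans (sup_le ?_ hx)
    rw [(hx1.2 (f l) le_rfl).1]
    exact hy
  inv_mem' := by
    rintro x ⟨hx1, hx⟩
    refine ⟨(QQ S J B (f l)).inv_mem hx1, ?_⟩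
    show (S (f l)).d ((x (f l))⁻¹ (ω (f l))) (ω (f l)) ≤ l
    rw [← (hx1.2 (f l) le_rfl).1, app_inv, (S (f l)).symm]
    exact hx

end

/-- **Core theorem.** A system of homogeneous spaces represents the lattice. -/
theorem core [Finite K] (hf : Function.Surjective f) (S : ∀ t, Sp f lo t)
    (J : ∀ t r, (S r).X → (S t).X) (B : ∀ s, Subgroup (Equiv.Perm (S s).X)) (ω : ∀ s, (S s).X)
    (hlo0 : ∀ l, lo (f l) ≤ l) (hflo : ∀ k, f (lo k) = k) (hfhi : ∀ k, f (hi k) = k)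
    (hhi : ∀ l, l ≤ hi (f l)) (hJ : ∀ t, Good S t J) (b0 : K) (hb0 : ∀ k, b0 ≤ k)
    (hH : ∀ t, t ≠ b0 → (S t).Homog)
    (hBiso : ∀ s, ∀ g ∈ B s, ∀ a b, (S s).d (g a) (g b) = (S s).d a b)
    (hBall : ∀ s, s ≠ b0 → ∀ g : Equiv.Perm (S s).X,
      (∀ a b, (S s).d (g a) (g b) = (S s).d a b) → g ∈ B s)
    (hω : ∀ r t, r ≤ t → J t r (ω r) = ω t)
    (hI : ∀ s (W : Subgroup (Equiv.Perm (S s).X)), W ≤ B s → (∀ g ∈ B s, g (ω s) = ω s → g ∈ W) →
      ∃ c, f c = s ∧ ∀ g ∈ B s, (g ∈ W ↔ (S s).d (g (ω s)) (ω s) ≤ c))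
    (hG : ∀ s a b, f a = s → f b = s → (∀ g ∈ B s, (S s).d (g (ω s)) (ω s) ≤ a →
      (S s).d (g (ω s)) (ω s) ≤ b) → a ≤ b)
    (hK : Representable K) : Representable L := by
  classical
  have hfin : ∀ t, Finite (S t).X := fun t => (S t).fin
  have hlo : ∀ k l, k ≤ f l → lo k ≤ l := by
    intro k l h
    have h1 : f (lo k ⊓ l) = k := by rw [map_inf, hflo, inf_eq_left.2 h]
    have h3 := hlo0 (lo k ⊓ l)
    rw [h1] at h3
    exact h3.trans inf_le_right
  have hM : Representable (Subgroup (∀ t, Equiv.Perm (S t).X)) := representable_subgroup _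
  have hext : ∀ s, ∀ g0 ∈ B s, ∃ x ∈ QQ S J B s, x s = g0 := by
    intro s g0 hg0
    obtain ⟨x, hx1, hx2⟩ := exists_ext hlo hflo hJ s (fun t hst => hH t (by
      rintro rfl
      exact absurd (hb0 s) (not_le_of_gt hst))) g0 (hBiso s g0 hg0)
    exact ⟨x, ⟨by rw [hx1]; exact hg0, hx2⟩, hx1⟩
  refine Representable.master f hf (PP S J B ω hlo0) ?_ ?_ ?_ hK hM
  · -- monotone
    intro l l' hll x hx
    have hst : f l ≤ f l' := OrderHomClass.mono f hll
    obtain ⟨⟨hx1, hx2⟩, hx3⟩ := hx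
    refine ⟨⟨?_, fun t ht => ⟨(hx2 t (hst.trans ht)).1,
      fun r hr hrt => (hx2 t (hst.trans ht)).2 r (hst.trans hr) hrt⟩⟩, ?_⟩
    · rcases eq_or_lt_of_le hst with h | h
      · rw [← h]; exact hx1
      · refine hBall _ ?_ _ (hx2 _ hst).1
        rintro h'
        rw [h'] at h
        exact absurd (hb0 _) (not_le_of_gt h)
    · rw [← hω _ _ hst, (hx2 _ hst).2 _ le_rfl hst, (hJ _).isom _ hst]
      exact sup_le (hx3.trans hll) (hlo0 l')
  · -- order embedding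
    intro a b hab hP
    have hb' : f (b ⊓ hi (f a)) = f a := by rw [map_inf, hfhi, inf_eq_right.2 hab]
    refine (hG (f a) a (b ⊓ hi (f a)) rfl hb' ?_).trans inf_le_left
    intro g hg hga
    obtain ⟨x, hx1, hx2⟩ := hext (f a) g hg
    have hx : x ∈ PP S J B ω hlo0 a := ⟨hx1, by rw [hx2]; exact hga⟩
    obtain ⟨_, hx4⟩ := hP hx
    rw [← hω _ _ hab, (hx1.2 _ hab).2 _ le_rfl hab, (hJ _).isom _ hab, hx2] at hx4
    refine le_inf (le_sup_left.trans hx4) ?_
    have := hhi ((S (f a)).d (g (ω (f a))) (ω (f a)))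
    rwa [(S (f a)).fd] at this
  · -- intervals
    intro a b m hab hm1 hm2
    let W : Subgroup (Equiv.Perm (S (f a)).X) :=
      m.map (Pi.evalMonoidHom (fun t => Equiv.Perm (S t).X) (f a))
    have hQ : ∀ x ∈ m, x ∈ QQ S J B (f a) := by
      intro x hx
      have := (hm2 hx).1
      rwa [← hab] at this
    have hW : ∀ g, g ∈ W ↔ ∃ x ∈ m, x (f a) = g := fun g => Subgroup.mem_map
    obtain ⟨c, hc, hcW⟩ := hI (f a) W (by
      intro g hg
      obtain ⟨x, hx, rfl⟩ := (hW g).1 hg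
      exact (hQ x hx).1) (by
      intro g hg hgω
      obtain ⟨x, hx1, hx2⟩ := hext (f a) g hg
      refine (hW g).2 ⟨x, hm1 ⟨hx1, ?_⟩, hx2⟩
      rw [hx2, hgω, ((S _).self _ _).2 rfl]
      exact hlo0 a)
    refine ⟨c, hc, ?_⟩
    ext x
    have hcm : x ∈ PP S J B ω hlo0 c ↔ x ∈ QQ S J B (f a) ∧
        (S (f a)).d (x (f a) (ω (f a))) (ω (f a)) ≤ c := by
      rw [← hc]; exact Iff.rfl
    rw [hcm]
    constructor
    · rintro ⟨h1, h2⟩
      obtain ⟨y, hy, hyx⟩ := (hW _).1 ((hcW _ h1.1).2 h2)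
      have h3 : y⁻¹ * x ∈ m := by
        refine hm1 ⟨(QQ S J B (f a)).mul_mem ((QQ S J B (f a)).inv_mem (hQ y hy)) h1, ?_⟩
        show (S (f a)).d ((y (f a))⁻¹ (x (f a) (ω (f a)))) (ω (f a)) ≤ a
        rw [hyx]
        have : (x (f a))⁻¹ (x (f a) (ω (f a))) = ω (f a) := (x (f a)).symm_apply_apply _
        rw [this, ((S _).self _ _).2 rfl]
        exact hlo0 a
      have := m.mul_mem hy h3
      rwa [mul_inv_cancel_left] at this
    · intro hx
      exact ⟨hQ x hx, (hcW _ (hQ x hx).1).1 ((hW _).2 ⟨x, hx, rfl⟩)⟩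

end Vale.Agent.P183.H330
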