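import Vale.Agent.P183.H330.Maps

/-!
Existence of the system of spaces and maps, and extension of isometries.
-/

namespace Vale.Agent.P183.H330

variable {L K : Type} [Lattice L] [Lattice K] {f : LatticeHom L K} {lo hi : K → L}

theorem univ_zero {t : K} (S : Sp f lo t) {n : ℕ} (hn : n = 0) : S.Univ n := by
  intro A _ hA δ _ _ _ _
  have hA0 : Nat.card A = 0 := by omega
  have hE : IsEmpty A := by
    rcases Nat.card_eq_zero.1 hA0 with h | h
    · exact h
    · exact absurd ‹Finite A› (not_finite_iff_infinite.2 h)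
  exact ⟨fun a => (hE.false a).elim, fun a => (hE.false a).elim⟩

/-- Existence of the spaces. -/
theorem exists_spaces [Finite L] [Finite K] (hflo : ∀ k, f (lo k) = k) (hfhi : ∀ k, f (hi k) = k)
    (hlo : ∀ l, lo (f l) ≤ l) (hhi : ∀ l, l ≤ hi (f l)) (b0 : K) (hb0 : ∀ k, b0 ≤ k)
    (S0 : Sp f lo b0)
    (hd : ∀ t, t ≠ b0 → ∀ x y z, f x = t → f y = t → f z = t → (x ⊓ y) ⊔ z = (x ⊔ z) ⊓ (y ⊔ z)) :
    ∃ S : ∀ t, Sp f lo t, S b0 = S0 ∧ (∀ t, t ≠ b0 → (S t).Homog ∧ (S t).Tri) ∧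
      ∀ t, (S t).Univ (Nat.card (Σ r : {r : K // r < t}, (S r.1).X)) := by
  classical
  obtain ⟨S, hS⟩ := exists_rec (K := K) (C := fun t => Sp f lo t)
    (fun t prev St => (∀ h : t = b0, St = h ▸ S0) ∧ (t ≠ b0 → St.Homog ∧ St.Tri) ∧
      St.Univ (Nat.card (Σ r : {r : K // r < t}, (prev r.1 r.2).X))) (by
    intro t prev
    by_cases ht : t = b0
    · subst ht
      refine ⟨S0, fun _ => rfl, fun h => absurd rfl h, univ_zero S0 ?_⟩
      have hE : IsEmpty (Σ r : {r : K // r < t}, (prev r.1 r.2).X) :=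
        ⟨fun x => absurd (hb0 x.1.1) (not_le_of_gt x.1.2)⟩
      exact Nat.card_of_isEmpty
    · obtain ⟨St, h1, h2, h3⟩ := exists_sp (t := t) hflo hfhi hlo hhi (hd t ht)
        (Nat.card (Σ r : {r : K // r < t}, (prev r.1 r.2).X))
      exact ⟨St, fun h => absurd h ht, fun _ => ⟨h1, h2⟩, h3⟩)
  refine ⟨S, (hS b0).1 rfl, fun t => (hS t).2.1, fun t => (hS t).2.2⟩

/-- Existence of the maps. -/
theorem exists_maps [Finite K] (S : ∀ t, Sp f lo t) (hlo : ∀ k l, k ≤ f l → lo k ≤ l)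
    (hflo : ∀ k, f (lo k) = k)
    (hd : ∀ t, (∃ r, r < t) → ∀ x y z, f x = t → f y = t → f z = t →
      (x ⊓ y) ⊔ z = (x ⊔ z) ⊓ (y ⊔ z))
    (hc : ∀ q q' r', q ≤ r' → q' ≤ r' → ¬ q ≤ q' → ¬ q' ≤ q → ∀ x y z, f x = r' → f y = r' →
      r' ≤ f z → (x ⊓ y) ⊔ z = (x ⊔ z) ⊓ (y ⊔ z))
    (hU : ∀ t, (S t).Univ (Nat.card (Σ r : {r : K // r < t}, (S r.1).X))) :
    ∃ J : ∀ t r, (S r).X → (S t).X, ∀ t, Good S t J := by
  have hne : ∀ t, Nonempty (∀ r, (S r).X → (S t).X) := fun t => by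
    have := (S t).ne
    exact ⟨fun _ _ => Classical.arbitrary _⟩
  exact exists_family (C := fun t => ∀ r, (S r).X → (S t).X) (fun t J => Good S t J)
    (fun t J J' h hg => hg.local h)
    (fun t J hJ => exists_step hlo hflo hJ (hd t) hc (hU t))

/-- The images of two points of lower spaces keep their distance under compatible isometries. -/
theorem ext_dist {S : ∀ t, Sp f lo t} {J : ∀ t r, (S r).X → (S t).X} {t s : K}
    (hlo : ∀ k l, k ≤ f l → lo k ≤ l) (hflo : ∀ k, f (lo k) = k)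
    (hJ : ∀ t, Good S t J) (g : ∀ t, Equiv.Perm (S t).X)
    (hg : ∀ r, s ≤ r → r < t → (∀ a b, (S r).d (g r a) (g r b) = (S r).d a b) ∧
      ∀ q, s ≤ q → q ≤ r → ∀ a, g r (J r q a) = J r q (g q a))
    {r r' : K} (hsr : s ≤ r) (hrt : r < t) (hsr' : s ≤ r') (hrt' : r' < t) (a : (S r).X)
    (a' : (S r').X) :
    (S t).d (J t r (g r a)) (J t r' (g r' a')) = (S t).d (J t r a) (J t r' a') := by
  have hm : r ⊓ r' < t := lt_of_le_of_lt inf_le_left hrt
  have hsm : s ≤ r ⊓ r' := le_inf hsr hsr'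
  have hlot : ∀ k, k ≤ t → lo k ≤ lo t := fun k hk => hlo k (lo t) (by rw [hflo]; exact hk)
  have hub : ∀ (b : (S r).X) (b' : (S r').X) (e : (S (r ⊓ r')).X),
      (S t).d (J t r b) (J t r' b') ≤
        (S r).d b (J r (r ⊓ r') e) ⊔ (S r').d (J r' (r ⊓ r') e) b' ⊔ lo t := by
    intro b b' e
    refine ((S t).tri _ (J t (r ⊓ r') e) _).trans (sup_le ?_ ?_)
    · rw [← (hJ t).comp _ _ inf_le_left hrt.le, (hJ t).isom _ hrt.le]
      exact sup_le (le_sup_left.trans le_sup_left) le_sup_right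
    · rw [← (hJ t).comp _ _ inf_le_right hrt'.le, (hJ t).isom _ hrt'.le]
      exact sup_le (le_sup_right.trans le_sup_left) le_sup_right
  apply le_antisymm
  · refine (hJ t).amal r r' hrt.le hrt'.le a a' _ fun e => ?_
    have h1 := hub (g r a) (g r' a') (g (r ⊓ r') e)
    rw [← (hg r hsr hrt).2 _ hsm inf_le_left, ← (hg r' hsr' hrt').2 _ hsm inf_le_right,
      (hg r hsr hrt).1, (hg r' hsr' hrt').1] at h1
    exact h1
  · refine (hJ t).amal r r' hrt.le hrt'.le (g r a) (g r' a') _ fun e => ?_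
    have h1 := hub a a' ((g (r ⊓ r')).symm e)
    have h2 : J r (r ⊓ r') e = g r (J r (r ⊓ r') ((g (r ⊓ r')).symm e)) := by
      rw [(hg r hsr hrt).2 _ hsm inf_le_left, Equiv.apply_symm_apply]
    have h3 : J r' (r ⊓ r') e = g r' (J r' (r ⊓ r') ((g (r ⊓ r')).symm e)) := by
      rw [(hg r' hsr' hrt').2 _ hsm inf_le_right, Equiv.apply_symm_apply]
    rw [h2, h3, (hg r hsr hrt).1, (hg r' hsr' hrt').1]
    exact h1

/-- Every isometry of a space extends to a compatible family above it. -/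
theorem exists_ext [Finite K] {S : ∀ t, Sp f lo t} {J : ∀ t r, (S r).X → (S t).X}
    (hlo : ∀ k l, k ≤ f l → lo k ≤ l) (hflo : ∀ k, f (lo k) = k)
    (hJ : ∀ t, Good S t J) (s : K) (hH : ∀ t, s < t → (S t).Homog) (g0 : Equiv.Perm (S s).X)
    (hg0 : ∀ a b, (S s).d (g0 a) (g0 b) = (S s).d a b) :
    ∃ g : ∀ t, Equiv.Perm (S t).X, g s = g0 ∧ ∀ t, s ≤ t →
      (∀ a b, (S t).d (g t a) (g t b) = (S t).d a b) ∧
      ∀ r, s ≤ r → r ≤ t → ∀ a, g t (J t r a) = J t r (g r a) := by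
  classical
  obtain ⟨g, hg⟩ := exists_family (K := K) (C := fun t => Equiv.Perm (S t).X)
    (fun t g => s ≤ t → g s = g0 ∧ (∀ a b, (S t).d (g t a) (g t b) = (S t).d a b) ∧
      ∀ r, s ≤ r → r ≤ t → ∀ a, g t (J t r a) = J t r (g r a)) (by
    intro t g g' h hg hst
    obtain ⟨h1, h2, h3⟩ := hg hst
    refine ⟨by rw [← h s hst]; exact h1, by rw [← h t le_rfl]; exact h2, ?_⟩
    intro r hsr hrt a
    rw [← h t le_rfl, ← h r hrt]
    exact h3 r hsr hrt a) (by
    intro t g hprev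
    by_cases hst : s ≤ t
    swap
    · exact ⟨g, fun _ _ => rfl, fun h => absurd h hst⟩
    rcases eq_or_lt_of_le hst with hst' | hst'
    · subst hst'
      refine ⟨Function.update g s g0, fun r hr => Function.update_of_ne hr _ _, fun _ => ?_⟩
      rw [Function.update_self]
      refine ⟨rfl, hg0, fun r hsr hrs a => ?_⟩
      have : s = r := le_antisymm hsr hrs
      subst this
      rw [Function.update_self, (hJ s).refl, (hJ s).refl]
    · have hprev' : ∀ r, s ≤ r → r < t → (∀ a b, (S r).d (g r a) (g r b) = (S r).d a b) ∧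
          ∀ q, s ≤ q → q ≤ r → ∀ a, g r (J r q a) = J r q (g q a) :=
        fun r hsr hrt => (hprev r hrt hsr).2
      let A : Set (S t).X := {x | ∃ r, s ≤ r ∧ r < t ∧ ∃ a : (S r).X, J t r a = x}
      have hA : ∀ x : A, ∃ r, s ≤ r ∧ r < t ∧ ∃ a : (S r).X, J t r a = x.1 := fun x => x.2
      choose rr h1 h2 aa h3 using hA
      let σ : (S t).X → (S t).X := fun x =>
        if h : x ∈ A then J t (rr ⟨x, h⟩) (g (rr ⟨x, h⟩) (aa ⟨x, h⟩)) else x
      have hσ : ∀ x (h : x ∈ A), σ x = J t (rr ⟨x, h⟩) (g (rr ⟨x, h⟩) (aa ⟨x, h⟩)) :=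
        fun x h => dif_pos h
      obtain ⟨γ, hγ1, hγ2⟩ := hH t hst' A σ (by
        intro x hx y hy
        rw [hσ x hx, hσ y hy, ext_dist hlo hflo hJ g hprev' (h1 _) (h2 _) (h1 _) (h2 _), h3, h3])
      refine ⟨Function.update g t γ, fun r hr => Function.update_of_ne hr _ _, fun _ => ?_⟩
      have hsne : s ≠ t := hst'.ne
      rw [Function.update_self, Function.update_of_ne hsne]
      refine ⟨(hprev s hst' le_rfl).1, hγ1, fun r hsr hrt a => ?_⟩
      rcases eq_or_lt_of_le hrt with hrt' | hrt'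
      · subst hrt'
        rw [Function.update_self, (hJ r).refl, (hJ r).refl]
      · rw [Function.update_of_ne hrt'.ne]
        have hx : J t r a ∈ A := ⟨r, hsr, hrt', a, rfl⟩
        rw [hγ2 _ hx, hσ _ hx]
        apply ((S t).self _ _).1
        rw [ext_dist hlo hflo hJ g hprev' (h1 _) (h2 _) hsr hrt', h3]
        exact ((S t).self _ _).2 rfl)
  refine ⟨g, (hg s le_rfl).1, fun t ht => (hg t ht).2⟩

end Vale.Agent.P183.H330
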