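import Vale.Agent.P183.H330.Core
import Mathlib.GroupTheory.Coset.Basic
import Mathlib.GroupTheory.GroupAction.Quotient
import Mathlib.Order.Max

/-!
Extensions with distributive fibres, and extensions with chain fibres.
-/

namespace Vale.Agent.P183.H330

variable {L K : Type} [Lattice L] [Lattice K] {f : LatticeHom L K} {lo hi : K → L}

/-- The isometry group. -/
def isoSub {t : K} (S : Sp f lo t) : Subgroup (Equiv.Perm S.X) where
  carrier := {g | ∀ a b, S.d (g a) (g b) = S.d a b}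
  one_mem' := fun _ _ => rfl
  mul_mem' := by
    intro g h hg hh a b
    show S.d (g (h a)) (g (h b)) = _
    rw [hg, hh]
  inv_mem' := by
    intro g hg a b
    show S.d (g⁻¹ a) (g⁻¹ b) = _
    rw [← hg, app_inv, app_inv]

theorem mem_isoSub {t : K} {S : Sp f lo t} {g : Equiv.Perm S.X} :
    g ∈ isoSub S ↔ ∀ a b, S.d (g a) (g b) = S.d a b := Iff.rfl

/-- Two points at the same distance from two others. -/
theorem exists_iso_two {t : K} {S : Sp f lo t} (hH : S.Homog) (a b a' b' : S.X)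
    (h : S.d a b = S.d a' b') : ∃ g ∈ isoSub S, g a = a' ∧ g b = b' := by
  classical
  by_cases hab : a = b
  · subst hab
    have h' : a' = b' := (S.self _ _).1 (by rw [← h]; exact (S.self _ _).2 rfl)
    subst h'
    obtain ⟨g, hg1, hg2⟩ := hH {a} (fun _ => a') (by
      intro x hx y hy
      rw [Set.mem_singleton_iff] at hx hy
      subst hx; subst hy
      rw [(S.self _ _).2 rfl, (S.self _ _).2 rfl])
    exact ⟨g, hg1, hg2 a rfl, hg2 a rfl⟩
  · let σ : S.X → S.X := fun x => if x = a then a' else b'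
    have hσa : σ a = a' := if_pos rfl
    have hσb : σ b = b' := if_neg (fun h => hab h.symm)
    obtain ⟨g, hg1, hg2⟩ := hH {a, b} σ (by
      intro x hx y hy
      rcases hx with rfl | hx
      · rcases hy with rfl | hy
        · rw [(S.self _ _).2 rfl, (S.self _ _).2 rfl]
        · rw [Set.mem_singleton_iff] at hy
          subst hy
          rw [hσa, hσb, h]
      · rw [Set.mem_singleton_iff] at hx
        subst hx
        rcases hy with rfl | hy
        · rw [hσa, hσb, S.symm, S.symm x, h]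
        · rw [Set.mem_singleton_iff] at hy
          subst hy
          rw [(S.self _ _).2 rfl, (S.self _ _).2 rfl])
    refine ⟨g, hg1, ?_, ?_⟩
    · rw [hg2 a (Or.inl rfl), hσa]
    · rw [hg2 b (Or.inr rfl), hσb]

/-- Generation property in a homogeneous space. -/
theorem homog_gen {t : K} {S : Sp f lo t} (hH : S.Homog) (hT : S.Tri) (ω : S.X) (a b : L)
    (ha : f a = t) (h : ∀ g ∈ isoSub S, S.d (g ω) ω ≤ a → S.d (g ω) ω ≤ b) : a ≤ b := by
  obtain ⟨z, hz, _⟩ := hT ω ω a ha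
  obtain ⟨g, hg, hg1, _⟩ := exists_iso_two hH ω ω z z (by
    rw [(S.self _ _).2 rfl, (S.self _ _).2 rfl])
  have h1 : S.d (g ω) ω = a := by rw [hg1, S.symm, hz]
  have := h g hg h1.le
  rwa [h1] at this

/-- Interval property in a homogeneous space. -/
theorem homog_int [Finite L] {t : K} {S : Sp f lo t} (hH : S.Homog) (hT : S.Tri) (ω : S.X)
    (W : Subgroup (Equiv.Perm S.X)) (hWB : W ≤ isoSub S)
    (hW : ∀ g ∈ isoSub S, g ω = ω → g ∈ W) :
    ∃ c, f c = t ∧ ∀ g ∈ isoSub S, (g ∈ W ↔ S.d (g ω) ω ≤ c) := by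
  obtain ⟨c, ⟨g0, hg0, hc⟩, hmax⟩ := (Set.toFinite {c : L | ∃ g ∈ W, S.d (g ω) ω = c}).exists_maximal
    ⟨_, 1, W.one_mem, rfl⟩
  have hfc : f c = t := by rw [← hc]; exact S.fd _ _
  refine ⟨c, hfc, fun g hg => ⟨fun hgW => ?_, fun hgc => ?_⟩⟩
  · -- closed under joins
    obtain ⟨z, hz1, hz2⟩ := hT ω (g0⁻¹ ω) (S.d (g ω) ω) (S.fd _ _)
    obtain ⟨h, hh, hh1, hh2⟩ := exists_iso_two hH ω (g ω) ω z (by rw [hz1, S.symm])
    have h1 : h ∈ W := hW h hh hh1
    have h2 : g0 * h * g ∈ W := W.mul_mem (W.mul_mem hg0 h1) hgW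
    have h3 : S.d ((g0 * h * g) ω) ω = c ⊔ S.d (g ω) ω := by
      show S.d (g0 (h (g ω))) ω = _
      rw [hh2]
      have h4 : S.d (g0 z) ω = S.d z (g0⁻¹ ω) := by
        rw [← mem_isoSub.1 (hWB hg0) z (g0⁻¹ ω), app_inv]
      rw [h4, S.symm, hz2]
      have h5 : S.d ω (g0⁻¹ ω) = c := by
        rw [← mem_isoSub.1 (hWB hg0) ω (g0⁻¹ ω), app_inv, hc]
      rw [h5]
    have h4 := hmax ⟨_, h2, h3⟩ le_sup_left
    exact le_sup_right.trans h4
  · obtain ⟨z, hz1, hz2⟩ := hT (g0 ω) ω (S.d (g ω) ω) (S.fd _ _)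
    have hz3 : S.d ω z = S.d ω (g0 ω) := by
      rw [hz2, hc, S.symm ω (g0 ω), hc]
      exact sup_eq_left.2 hgc
    obtain ⟨h, hh, hh1, hh2⟩ := exists_iso_two hH ω (g0 ω) ω z hz3.symm
    have h1 : h ∈ W := hW h hh hh1
    have h2 : g0⁻¹ * h * g0 ∈ W := W.mul_mem (W.mul_mem (W.inv_mem hg0) h1) hg0
    have h3 : S.d ((g0⁻¹ * h * g0) ω) ω = S.d (g ω) ω := by
      show S.d (g0⁻¹ (h (g0 ω))) ω = _
      rw [hh2, ← mem_isoSub.1 (hWB hg0) _ ω, app_inv, S.symm, hz1]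
    obtain ⟨k, hk, hk1, hk2⟩ := exists_iso_two hH ((g0⁻¹ * h * g0) ω) ω (g ω) ω h3
    have h4 : k ∈ W := hW k hk hk2
    have h5 : k * (g0⁻¹ * h * g0) ∈ W := W.mul_mem h4 h2
    have h6 : (k * (g0⁻¹ * h * g0))⁻¹ * g ∈ W := by
      refine hW _ ((isoSub S).mul_mem ((isoSub S).inv_mem (hWB h5)) hg) ?_
      show (k * (g0⁻¹ * h * g0))⁻¹ (g ω) = ω
      rw [← hk1]
      exact (k * (g0⁻¹ * h * g0)).symm_apply_apply ω
    have := W.mul_mem h5 h6
    rwa [mul_inv_cancel_left] at this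

/-- The bottom space, from an interval in the subgroup lattice of a finite group. -/
theorem exists_bottom [Finite L] (hflo : ∀ k, f (lo k) = k) (hfhi : ∀ k, f (hi k) = k)
    (hlo : ∀ l, lo (f l) ≤ l) (hhi : ∀ l, l ≤ hi (f l)) (b0 : K)
    (G : Type) [Group G] [Finite G] (H : Subgroup G)
    (θ : {l : L // f l = b0} ≃o {W : Subgroup G // H ≤ W}) :
    ∃ (S : Sp f lo b0) (B : Subgroup (Equiv.Perm S.X)) (ω : S.X), B ≤ isoSub S ∧
      (∀ W : Subgroup (Equiv.Perm S.X), W ≤ B → (∀ g ∈ B, g ω = ω → g ∈ W) →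
        ∃ c, f c = b0 ∧ ∀ g ∈ B, (g ∈ W ↔ S.d (g ω) ω ≤ c)) ∧
      (∀ a b, f a = b0 → f b = b0 → (∀ g ∈ B, S.d (g ω) ω ≤ a → S.d (g ω) ω ≤ b) → a ≤ b) := by
  classical
  have hlo' : ∀ l, f l = b0 → lo b0 ≤ l := by
    intro l hl
    have := hlo l
    rwa [hl] at this
  have hhi' : ∀ l, f l = b0 → l ≤ hi b0 := by
    intro l hl
    have := hhi l
    rwa [hl] at this
  -- the subgroup of an element
  let U : {l : L // f l = b0} → Subgroup G := fun l => (θ l).1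
  have hHU : ∀ l, H ≤ U l := fun l => (θ l).2
  have hUle : ∀ l l', U l ≤ U l' ↔ l.1 ≤ l'.1 := fun l l' => θ.le_iff_le
  have hUsurj : ∀ W : Subgroup G, H ≤ W → ∃ l, U l = W := by
    intro W hW
    exact ⟨θ.symm ⟨W, hW⟩, by show (θ (θ.symm ⟨W, hW⟩)).1 = W; rw [θ.apply_symm_apply]⟩
  have hex : ∀ x : G, ∃ d : L, f d = b0 ∧ ∀ l (hl : f l = b0), (d ≤ l ↔ x ∈ U ⟨l, hl⟩) := by
    intro x
    obtain ⟨d, ⟨hd, hdx⟩, hmin⟩ := (Set.toFinite {l : L | ∃ hl : f l = b0, x ∈ U ⟨l, hl⟩}).exists_minimal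
      ⟨hi b0, hfhi b0, by
        obtain ⟨l, hl⟩ := hUsurj ⊤ le_top
        have h1 : U l ≤ U ⟨hi b0, hfhi b0⟩ := (hUle _ _).2 (hhi' l.1 l.2)
        rw [hl] at h1
        exact h1 (Subgroup.mem_top x)⟩
    refine ⟨d, hd, fun l hl => ⟨fun h => ?_, fun h => ?_⟩⟩
    · exact (hUle ⟨d, hd⟩ ⟨l, hl⟩).2 h hdx
    · obtain ⟨m, hm⟩ := hUsurj (U ⟨d, hd⟩ ⊓ U ⟨l, hl⟩) (le_inf (hHU _) (hHU _))
      have h1 : m.1 ≤ d := (hUle m ⟨d, hd⟩).1 (hm.le.trans inf_le_left)
      have h2 : m.1 ≤ l := (hUle m ⟨l, hl⟩).1 (hm.le.trans inf_le_right)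
      have h3 : x ∈ U m := by rw [hm]; exact ⟨hdx, h⟩
      exact (hmin ⟨m.2, h3⟩ h1).trans h2
  choose δ hδf hδ using hex
  have hδH : ∀ x, δ x = lo b0 ↔ x ∈ H := by
    intro x
    obtain ⟨l, hl⟩ := hUsurj H le_rfl
    have h1 : U ⟨lo b0, hflo b0⟩ = H := by
      apply le_antisymm
      · rw [← hl]; exact (hUle _ _).2 (hlo' l.1 l.2)
      · exact hHU _
    rw [← h1, ← hδ x (lo b0) (hflo b0)]
    exact ⟨fun h => h.le, fun h => le_antisymm h (hlo' _ (hδf x))⟩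
  have hδext : ∀ x y, (∀ l (hl : f l = b0), x ∈ U ⟨l, hl⟩ ↔ y ∈ U ⟨l, hl⟩) → δ x = δ y := by
    intro x y h
    apply le_antisymm
    · rw [hδ x _ (hδf y), h, ← hδ y _ (hδf y)]
    · rw [hδ y _ (hδf x), ← h, ← hδ x _ (hδf x)]
  have hcos : ∀ (l : L) (hl : f l = b0) (x h k : G), h ∈ H → k ∈ H →
      (h * x * k ∈ U ⟨l, hl⟩ ↔ x ∈ U ⟨l, hl⟩) := by
    intro l hl x h k hh hk
    rw [Subgroup.mul_mem_cancel_right _ (hHU _ hk), Subgroup.mul_mem_cancel_left _ (hHU _ hh)]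
  let D : G ⧸ H → G ⧸ H → L := fun x y => δ (x.out⁻¹ * y.out)
  have hDmk : ∀ a b : G, D (a : G ⧸ H) (b : G ⧸ H) = δ (a⁻¹ * b) := by
    intro a b
    apply hδext
    intro l hl
    obtain ⟨h, hh⟩ := QuotientGroup.mk_out_eq_mul H a
    obtain ⟨k, hk⟩ := QuotientGroup.mk_out_eq_mul H b
    rw [hh, hk]
    have : (a * h.1)⁻¹ * (b * k.1) = h.1⁻¹ * (a⁻¹ * b) * k.1 := by group
    rw [this]
    exact hcos l hl _ _ _ (H.inv_mem h.2) k.2
  let S : Sp f lo b0 :=
    { X := G ⧸ H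
      fin := inferInstance
      ne := ⟨((1 : G) : G ⧸ H)⟩
      d := D
      fd := fun x y => hδf _
      self := by
        intro x y
        induction x using QuotientGroup.induction_on with
        | H a =>
        induction y using QuotientGroup.induction_on with
        | H b =>
        rw [hDmk, hδH]
        exact QuotientGroup.eq.symm
      symm := by
        intro x y
        apply hδext
        intro l hl
        rw [← Subgroup.inv_mem_iff, mul_inv_rev, inv_inv]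
      tri := by
        intro x y z
        have hf' : f (D x y ⊔ D y z) = b0 := by
          rw [map_sup]
          show f (δ _) ⊔ f (δ _) = b0
          rw [hδf, hδf, sup_idem]
        refine (hδ _ _ hf').2 ?_
        have h1 := (hδ (x.out⁻¹ * y.out) _ hf').1 le_sup_left
        have h2 := (hδ (y.out⁻¹ * z.out) _ hf').1 le_sup_right
        have h3 := Subgroup.mul_mem _ h1 h2
        have h4 : x.out⁻¹ * y.out * (y.out⁻¹ * z.out) = x.out⁻¹ * z.out := by group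
        rwa [h4] at h3 }
  let ρ : G →* Equiv.Perm (G ⧸ H) := MulAction.toPermHom G (G ⧸ H)
  have hρ : ∀ a b : G, ρ a ((b : G) : G ⧸ H) = ((a * b : G) : G ⧸ H) := fun a b => rfl
  have hstab : ∀ a : G, ρ a ((1 : G) : G ⧸ H) = ((1 : G) : G ⧸ H) ↔ a ∈ H := by
    intro a
    rw [hρ, mul_one, eq_comm, QuotientGroup.eq, inv_one, one_mul]
  have hdist : ∀ a : G, S.d (ρ a ((1 : G) : G ⧸ H)) ((1 : G) : G ⧸ H) = δ a := by
    intro a
    show D _ _ = _
    rw [hρ, mul_one, hDmk, mul_one]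
    apply hδext
    intro l hl
    exact Subgroup.inv_mem_iff _
  refine ⟨S, ρ.range, ((1 : G) : G ⧸ H), ?_, ?_, ?_⟩
  · rintro _ ⟨a, rfl⟩ x y
    induction x using QuotientGroup.induction_on with
    | H b =>
    induction y using QuotientGroup.induction_on with
    | H c =>
    show D (ρ a _) (ρ a _) = D _ _
    rw [hρ, hρ, hDmk, hDmk]
    congr 1
    group
  · intro W hWB hW
    obtain ⟨c, hc⟩ := hUsurj (W.comap ρ) (by
      intro h hh
      exact hW (ρ h) ⟨h, rfl⟩ ((hstab h).2 hh))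
    refine ⟨c.1, c.2, ?_⟩
    rintro _ ⟨a, rfl⟩
    rw [hdist, hδ a c.1 c.2]
    show _ ↔ a ∈ U c
    rw [hc]
    exact Iff.rfl
  · intro a b ha hb h
    refine (hUle ⟨a, ha⟩ ⟨b, hb⟩).1 fun x hx => ?_
    have h1 := h (ρ x) ⟨x, rfl⟩
    rw [hdist, hδ x a ha, hδ x b hb] at h1
    exact h1 hx

/-- **Theorem E**, with a bottom element named. -/
theorem ext_bottom [Finite L] (hf : Function.Surjective f) (b0 : K) (hb0 : ∀ k, b0 ≤ k)
    (hbot : ∃ (G : Type) (_ : Group G) (_ : Finite G) (H : Subgroup G),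
      Nonempty ({l : L // f l = b0} ≃o {W : Subgroup G // H ≤ W}))
    (hd : ∀ x y z, f x = f y → f y = f z → f x ≠ b0 → (x ⊓ y) ⊔ z = (x ⊔ z) ⊓ (y ⊔ z))
    (hc : ∀ x y z, f x = f y → f x ≤ f z → (∃ p q, p ≤ f x ∧ q ≤ f x ∧ ¬ p ≤ q ∧ ¬ q ≤ p) →
      (x ⊓ y) ⊔ z = (x ⊔ z) ⊓ (y ⊔ z))
    (hK : Representable K) : Representable L := by
  classical
  have hKfin : Finite K := Finite.of_surjective f hf
  obtain ⟨lo, hi, hflo, hfhi, hlo, hhi⟩ := exists_lo_hi_fin f hf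
  have hlo' : ∀ k l, k ≤ f l → lo k ≤ l := by
    intro k l h
    have h1 : f (lo k ⊓ l) = k := by rw [map_inf, hflo, inf_eq_left.2 h]
    have h3 := hlo (lo k ⊓ l)
    rw [h1] at h3
    exact h3.trans inf_le_right
  obtain ⟨G, hG, hGf, H, ⟨θ⟩⟩ := hbot
  obtain ⟨S0, B0, ω0, hB0, hI0, hG0⟩ := exists_bottom (f := f) hflo hfhi hlo hhi b0 G H θ
  obtain ⟨S, hS0, hS1, hS2⟩ := exists_spaces hflo hfhi hlo hhi b0 hb0 S0
    (fun t ht x y z hx hy hz => hd x y z (hx.trans hy.symm) (hy.trans hz.symm) (by rw [hx]; exact ht))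
  obtain ⟨J, hJ⟩ := exists_maps S hlo' hflo
    (fun t ht x y z hx hy hz => hd x y z (hx.trans hy.symm) (hy.trans hz.symm) (by
      rw [hx]
      rintro rfl
      obtain ⟨r, hr⟩ := ht
      exact absurd (hb0 r) (not_le_of_gt hr)))
    (fun q q' r' hq hq' h1 h2 x y z hx hy hz => hc x y z (hx.trans hy.symm) (by rw [hx]; exact hz)
      ⟨q, q', by rw [hx]; exact hq, by rw [hx]; exact hq', h1, h2⟩) hS2
  subst hS0
  let B : ∀ s, Subgroup (Equiv.Perm (S s).X) := fun s => if h : s = b0 then h ▸ B0 else isoSub (S s)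
  have hBb : B b0 = B0 := dif_pos rfl
  have hBn : ∀ s, s ≠ b0 → B s = isoSub (S s) := fun s h => dif_neg h
  have hωω : J b0 b0 ω0 = ω0 := (hJ b0).refl ω0
  refine core (hi := hi) hf S J B (fun t => J t b0 ω0) hlo hflo hfhi hhi hJ b0 hb0
    (fun t ht => (hS1 t ht).1) ?_ ?_ ?_ ?_ ?_ hK
  · intro s g hg
    by_cases hs : s = b0
    · subst hs
      rw [hBb] at hg
      exact hB0 hg
    · rw [hBn s hs] at hg
      exact hg
  · intro s hs g hg
    rw [hBn s hs]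
    exact hg
  · intro r t hrt
    exact (hJ t).comp _ _ (hb0 r) hrt ω0
  · intro s
    by_cases hs : s = b0
    · subst hs
      intro W
      rw [hBb]
      show _ → (∀ g ∈ B0, g (J s s ω0) = J s s ω0 → g ∈ W) → _
      rw [hωω]
      exact hI0 W
    · intro W
      rw [hBn s hs]
      exact homog_int (hS1 s hs).1 (hS1 s hs).2 _ W
  · intro s
    by_cases hs : s = b0
    · subst hs
      intro a b ha hb
      rw [hBb]
      show (∀ g ∈ B0, (S s).d (g (J s s ω0)) (J s s ω0) ≤ a → (S s).d (g (J s s ω0)) (J s s ω0) ≤ b) → _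
      rw [hωω]
      exact hG0 a b ha hb
    · intro a b ha hb
      rw [hBn s hs]
      exact homog_gen (hS1 s hs).1 (hS1 s hs).2 _ a b ha

end Vale.Agent.P183.H330
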