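import Vale.Agent.P183.H330.Space
import Mathlib.Order.Lattice
import Mathlib.Data.Finset.Lattice.Fold
import Mathlib.Data.Fintype.Sigma
import Mathlib.Data.Finite.Sigma

/-!
A compatible system of isometric maps between homogeneous spaces over a finite lattice.
-/

namespace Vale.Agent.P183.H330

/-- Recursion along a finite order, in a form without casts. -/
theorem exists_rec {K : Type} [PartialOrder K] [Finite K] {C : K → Type 1}
    (P : ∀ t, (∀ r, r < t → C r) → C t → Prop) (h : ∀ t prev, ∃ S, P t prev S) :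
    ∃ F : ∀ t, C t, ∀ t, P t (fun r _ => F r) (F t) := by
  classical
  choose G hG using h
  have wf : WellFounded (fun a b : K => a < b) := (inferInstance : WellFoundedLT K).wf
  refine ⟨wf.fix (fun t prev => G t prev), fun t => ?_⟩
  rw [wf.fix_eq]
  exact hG _ _

/-- Building a family along a finite order by successive updates. -/
theorem exists_family {K : Type} [PartialOrder K] [Finite K] {C : K → Type} [∀ t, Nonempty (C t)]
    (Good : ∀ _ : K, (∀ r, C r) → Prop)
    (loc : ∀ t J J', (∀ r, r ≤ t → J r = J' r) → Good t J → Good t J')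
    (step : ∀ t J, (∀ r, r < t → Good r J) → ∃ S : ∀ r, C r,
      (∀ r, r ≠ t → S r = J r) ∧ Good t S) :
    ∃ J : ∀ r, C r, ∀ t, Good t J := by
  classical
  have := Fintype.ofFinite K
  have key : ∀ n : ℕ, ∀ I : Finset K, I.card = n → (∀ a ∈ I, ∀ b, b ≤ a → b ∈ I) →
      ∃ J : ∀ r, C r, ∀ t ∈ I, Good t J := by
    intro n
    induction n with
    | zero =>
      intro I hI _
      have : I = ∅ := Finset.card_eq_zero.1 hI
      subst this
      exact ⟨fun r => Classical.arbitrary _, fun t ht => absurd ht (Finset.notMem_empty t)⟩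
    | succ n ih =>
      intro I hI hdown
      have hne : I.Nonempty := by
        rw [← Finset.card_pos, hI]; exact Nat.succ_pos n
      obtain ⟨t, ht, hmax⟩ := I.finite_toSet.exists_maximal (by simpa using hne)
      have ht' : t ∈ I := by simpa using ht
      obtain ⟨J, hJ⟩ := ih (I.erase t) (by rw [Finset.card_erase_of_mem ht', hI]; rfl) (by
        intro a ha b hb
        rw [Finset.mem_erase] at ha ⊢
        refine ⟨?_, hdown a ha.2 b hb⟩
        rintro rfl
        exact ha.1 (le_antisymm (hmax (by simpa using ha.2) hb) hb))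
      obtain ⟨S, hS1, hS2⟩ := step t J (by
        intro r hr
        exact hJ r (Finset.mem_erase.2 ⟨hr.ne, hdown t ht' r hr.le⟩))
      refine ⟨S, fun r hr => ?_⟩
      by_cases hrt : r = t
      · subst hrt; exact hS2
      · refine loc r J S ?_ (hJ r (Finset.mem_erase.2 ⟨hrt, hr⟩))
        intro q hq
        refine (hS1 q ?_).symm
        rintro rfl
        exact hrt (le_antisymm (hmax (by simpa using hr) hq) hq)
  obtain ⟨J, hJ⟩ := key _ Finset.univ rfl (fun _ _ _ _ => Finset.mem_univ _)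
  exact ⟨J, fun t => hJ t (Finset.mem_univ t)⟩

section Inf

variable {L K : Type} [Lattice L] [Lattice K] {f : LatticeHom L K}

/-- Finite meets inside one fibre, and their behaviour under joins. -/
theorem le_inf_sup {ι : Type} [Finite ι] [Nonempty ι] {s : K} (E : ι → L)
    (hE : ∀ i, f (E i) = s) :
    ∃ D : L, f D = s ∧ (∀ i, D ≤ E i) ∧ (∀ l, (∀ i, l ≤ E i) → l ≤ D) ∧
      ∀ Y l : L, (∀ x y, f x = s → f y = s → (x ⊓ y) ⊔ Y = (x ⊔ Y) ⊓ (y ⊔ Y)) →
        (∀ i, l ≤ E i ⊔ Y) → l ≤ D ⊔ Y := by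
  classical
  have := Fintype.ofFinite ι
  have hne : (Finset.univ : Finset ι).Nonempty := Finset.univ_nonempty
  refine ⟨Finset.univ.inf' hne E, ?_, fun i => Finset.inf'_le _ (Finset.mem_univ i),
    fun l h => Finset.le_inf' _ _ fun i _ => h i, fun Y l hd h => ?_⟩
  · refine Finset.inf'_induction hne E (p := fun x => f x = s) ?_ fun i _ => hE i
    intro x hx y hy
    rw [map_inf, hx, hy, inf_idem]
  · refine (Finset.inf'_induction hne E (p := fun x => f x = s ∧ l ≤ x ⊔ Y) ?_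
      fun i _ => ⟨hE i, h i⟩).2
    rintro x ⟨hx, hx'⟩ y ⟨hy, hy'⟩
    refine ⟨by rw [map_inf, hx, hy, inf_idem], ?_⟩
    rw [hd x y hx hy]
    exact le_inf hx' hy'

end Inf

section Good

variable {L K : Type} [Lattice L] [Lattice K] {f : LatticeHom L K} {lo hi : K → L}

/-- The conditions on the maps into the space over `t`. -/
structure Good (S : ∀ t, Sp f lo t) (t : K) (J : ∀ t r, (S r).X → (S t).X) : Prop where
  refl : ∀ a, J t t a = a
  comp : ∀ q r, q ≤ r → r ≤ t → ∀ a, J t r (J r q a) = J t q a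
  isom : ∀ r, r ≤ t → ∀ a a', (S t).d (J t r a) (J t r a') = (S r).d a a' ⊔ lo t
  amal : ∀ r r', r ≤ t → r' ≤ t → ∀ a a' l,
    (∀ e, l ≤ (S r).d a (J r (r ⊓ r') e) ⊔ (S r').d (J r' (r ⊓ r') e) a' ⊔ lo t) →
    l ≤ (S t).d (J t r a) (J t r' a')

theorem Good.local {S : ∀ t, Sp f lo t} {t : K} {J J' : ∀ t r, (S r).X → (S t).X}
    (h : ∀ r, r ≤ t → J r = J' r) (hg : Good S t J) : Good S t J' := by
  constructor
  · intro a
    rw [← h t le_rfl]; exact hg.refl a
  · intro q r hqr hrt a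
    rw [← h t le_rfl, ← h r hrt]; exact hg.comp q r hqr hrt a
  · intro r hrt a a'
    rw [← h t le_rfl]; exact hg.isom r hrt a a'
  · intro r r' hr hr' a a' l
    rw [← h t le_rfl, ← h r hr, ← h r' hr']; exact hg.amal r r' hr hr' a a' l

/-- The inequality behind the amalgamated distances, comparable case. -/
theorem tri_comp {S : ∀ t, Sp f lo t} {J : ∀ t r, (S r).X → (S t).X}
    (hlo : ∀ k l, k ≤ f l → lo k ≤ l) (hflo : ∀ k, f (lo k) = k) {t r r' r'' q q' : K}
    (hr'' : r'' ≤ t) (gr : Good S r J) (gr' : Good S r' J) (gr'' : Good S r'' J)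
    (hqr : q ≤ r) (hqr' : q' ≤ r') (hqr'' : q' ≤ r'') (hq : q ≤ q')
    (e : (S q).X) (e' : (S q').X)
    (a : (S r).X) (a'' : (S r'').X) (l : L)
    (h : ∀ e, l ≤ (S r).d a (J r (r ⊓ r'') e) ⊔ (S r'').d (J r'' (r ⊓ r'') e) a'' ⊔ lo t) :
    l ≤ (S r).d a (J r q e) ⊔ (S r').d (J r' q e) (J r' q' e') ⊔
      (S r'').d (J r'' q' e') a'' ⊔ lo t := by
  have hqq : q ≤ r ⊓ r'' := le_inf hqr (hq.trans hqr'')
  have h1 := h (J (r ⊓ r'') q e)
  rw [gr.comp _ _ hqq inf_le_left, gr''.comp _ _ hqq inf_le_right] at h1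
  have h2 : J r'' q e = J r'' q' (J q' q e) := (gr''.comp _ _ hq hqr'' e).symm
  have h3 := (S r'').tri (J r'' q e) (J r'' q' e') a''
  have h4 : (S r'').d (J r'' q e) (J r'' q' e') = (S q').d (J q' q e) e' ⊔ lo r'' := by
    rw [h2, gr''.isom _ hqr'']
  have h5 : (S r').d (J r' q e) (J r' q' e') = (S q').d (J q' q e) e' ⊔ lo r' := by
    rw [← gr'.comp _ _ hq hqr', gr'.isom _ hqr']
  have hlot : lo r'' ≤ lo t := hlo r'' (lo t) (by rw [hflo]; exact hr'')
  rw [h4] at h3
  rw [h5]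
  refine h1.trans (sup_le (sup_le ?_ ?_) ?_)
  · exact le_sup_left.trans (le_sup_left.trans le_sup_left)
  · refine h3.trans (sup_le (sup_le ?_ ?_) ?_)
    · exact le_sup_left.trans (le_sup_right.trans (le_sup_left.trans le_sup_left))
    · exact hlot.trans le_sup_right
    · exact le_sup_right.trans le_sup_left
  · exact le_sup_right

/-- The inequality behind the amalgamated distances. -/
theorem tri_key {S : ∀ t, Sp f lo t} {J : ∀ t r, (S r).X → (S t).X}
    (hlo : ∀ k l, k ≤ f l → lo k ≤ l) (hflo : ∀ k, f (lo k) = k) {t r r' r'' q q' : K}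
    (hr : r ≤ t) (hr' : r' ≤ t) (hr'' : r'' ≤ t)
    (gr : Good S r J) (gr' : Good S r' J) (gr'' : Good S r'' J)
    (hqr : q ≤ r) (hqr1 : q ≤ r') (hqr' : q' ≤ r') (hqr'' : q' ≤ r'')
    (hc : ¬ q ≤ q' → ¬ q' ≤ q → ∀ x y z, f x = r' → f y = r' → r' ≤ f z →
      (x ⊓ y) ⊔ z = (x ⊔ z) ⊓ (y ⊔ z))
    (e : (S q).X) (e' : (S q').X)
    (a : (S r).X) (a'' : (S r'').X) (l : L)
    (h : ∀ e, l ≤ (S r).d a (J r (r ⊓ r'') e) ⊔ (S r'').d (J r'' (r ⊓ r'') e) a'' ⊔ lo t) :
    l ≤ (S r).d a (J r q e) ⊔ (S r').d (J r' q e) (J r' q' e') ⊔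
      (S r'').d (J r'' q' e') a'' ⊔ lo t := by
  by_cases h1 : q ≤ q'
  · exact tri_comp hlo hflo hr'' gr gr' gr'' hqr hqr' hqr'' h1 e e' a a'' l h
  by_cases h2 : q' ≤ q
  · have h3 := tri_comp (r := r'') (r' := r') (r'' := r) hlo hflo hr gr'' gr' gr hqr'' hqr1 hqr
      h2 e' e a'' a l (by
        intro g
        have h4 := h (J (r ⊓ r'') (r'' ⊓ r) g)
        have hle : r'' ⊓ r ≤ r ⊓ r'' := le_of_eq (inf_comm _ _)
        rw [gr.comp _ _ hle inf_le_left, gr''.comp _ _ hle inf_le_right] at h4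
        rw [(S r'').symm a'', (S r).symm _ a, sup_comm ((S r'').d _ _)]
        exact h4)
    rw [(S r'').symm a'', (S r').symm, (S r).symm _ a] at h3
    refine h3.trans (sup_le (sup_le (sup_le ?_ ?_) ?_) le_sup_right)
    · exact le_sup_right.trans le_sup_left
    · exact le_sup_right.trans (le_sup_left.trans le_sup_left)
    · exact le_sup_left.trans (le_sup_left.trans le_sup_left)
  · have hlot : ∀ k, k ≤ t → lo k ≤ lo t := fun k hk => hlo k (lo t) (by rw [hflo]; exact hk)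
    have hqq : q ⊓ q' ≤ r ⊓ r'' := le_inf (inf_le_left.trans hqr) (inf_le_right.trans hqr'')
    let Y : L := (S r).d a (J r q e) ⊔ (S r'').d (J r'' q' e') a'' ⊔ lo t
    have hY : r' ≤ f Y := by
      show r' ≤ f (_ ⊔ lo t)
      rw [map_sup, hflo]
      exact hr'.trans le_sup_right
    have hne : Nonempty (S (q ⊓ q')).X := (S (q ⊓ q')).ne
    have hfin : Finite (S (q ⊓ q')).X := (S (q ⊓ q')).fin
    have hqr1' : q ⊓ q' ≤ r' := inf_le_left.trans hqr1
    obtain ⟨D, hD, hDle, hDglb, hDsup⟩ := le_inf_sup (f := f) (s := r')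
      (fun g : (S (q ⊓ q')).X => (S q).d e (J q (q ⊓ q') g) ⊔ (S q').d (J q' (q ⊓ q') g) e' ⊔ lo r')
      (fun g => by
        rw [map_sup, map_sup, (S q).fd, (S q').fd, hflo]
        exact sup_eq_right.2 (sup_le hqr1 hqr'))
    have h3 : D ≤ (S r').d (J r' q e) (J r' q' e') := gr'.amal q q' hqr1 hqr' e e' D hDle
    have h4 : l ≤ D ⊔ Y := by
      refine hDsup Y l (fun x y hx hy => hc h1 h2 x y Y hx hy hY) fun g => ?_
      have h5 := h (J (r ⊓ r'') (q ⊓ q') g)
      rw [gr.comp _ _ hqq inf_le_left, gr''.comp _ _ hqq inf_le_right] at h5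
      have h6 := (S r).tri a (J r q e) (J r (q ⊓ q') g)
      have h7 : (S r).d (J r q e) (J r (q ⊓ q') g) = (S q).d e (J q (q ⊓ q') g) ⊔ lo r := by
        rw [← gr.comp _ _ inf_le_left hqr, gr.isom _ hqr]
      have h8 := (S r'').tri (J r'' (q ⊓ q') g) (J r'' q' e') a''
      have h9 : (S r'').d (J r'' (q ⊓ q') g) (J r'' q' e') =
          (S q').d (J q' (q ⊓ q') g) e' ⊔ lo r'' := by
        rw [← gr''.comp _ _ inf_le_right hqr'', gr''.isom _ hqr'']
      rw [h7] at h6
      rw [h9] at h8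
      have hYt : lo t ≤ Y := le_sup_right
      refine h5.trans (sup_le (sup_le ?_ ?_) (hYt.trans le_sup_right))
      · refine h6.trans (sup_le ?_ (sup_le ?_ ?_))
        · exact (le_sup_left.trans le_sup_left).trans le_sup_right
        · exact (le_sup_left.trans le_sup_left).trans le_sup_left
        · exact ((hlot r hr).trans hYt).trans le_sup_right
      · refine h8.trans (sup_le (sup_le ?_ ?_) ?_)
        · exact (le_sup_right.trans le_sup_left).trans le_sup_left
        · exact ((hlot r'' hr'').trans hYt).trans le_sup_right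
        · exact (le_sup_right.trans le_sup_left).trans le_sup_right
    refine h4.trans (sup_le ?_ (sup_le (sup_le ?_ ?_) le_sup_right))
    · exact h3.trans (le_sup_right.trans (le_sup_left.trans le_sup_left))
    · exact le_sup_left.trans (le_sup_left.trans le_sup_left)
    · exact le_sup_right.trans le_sup_left

/-- One step of the construction of the maps. -/
theorem exists_step [Finite K] {S : ∀ t, Sp f lo t} {J : ∀ t r, (S r).X → (S t).X}
    (hlo : ∀ k l, k ≤ f l → lo k ≤ l) (hflo : ∀ k, f (lo k) = k) {t : K}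
    (hJ : ∀ r, r < t → Good S r J)
    (hd : (∃ r, r < t) → ∀ x y z, f x = t → f y = t → f z = t →
      (x ⊓ y) ⊔ z = (x ⊔ z) ⊓ (y ⊔ z))
    (hc : ∀ q q' r', q ≤ r' → q' ≤ r' → ¬ q ≤ q' → ¬ q' ≤ q → ∀ x y z, f x = r' → f y = r' →
      r' ≤ f z → (x ⊓ y) ⊔ z = (x ⊔ z) ⊓ (y ⊔ z))
    (hU : (S t).Univ (Nat.card (Σ r : {r : K // r < t}, (S r.1).X))) :
    ∃ J' : ∀ t r, (S r).X → (S t).X, (∀ r, r ≠ t → J' r = J r) ∧ Good S t J' := by
  classical
  have hlot : ∀ k k', k ≤ k' → lo k ≤ lo k' := fun k k' hk => hlo k _ (by rw [hflo]; exact hk)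
  let A : Type := Σ r : {r : K // r < t}, (S r.1).X
  have hAfin : Finite A := by
    have : ∀ r : {r : K // r < t}, Finite (S r.1).X := fun r => (S r.1).fin
    exact inferInstanceAs (Finite (Σ r : {r : K // r < t}, (S r.1).X))
  let E : ∀ x y : A, (S (x.1.1 ⊓ y.1.1)).X → L := fun x y e =>
    (S x.1.1).d x.2 (J x.1.1 (x.1.1 ⊓ y.1.1) e) ⊔ (S y.1.1).d (J y.1.1 (x.1.1 ⊓ y.1.1) e) y.2 ⊔ lo t
  have hE : ∀ x y e, f (E x y e) = t := by
    intro x y e
    show f (_ ⊔ _ ⊔ lo t) = t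
    rw [map_sup, map_sup, (S _).fd, (S _).fd, hflo]
    exact sup_eq_right.2 (sup_le x.1.2.le y.1.2.le)
  have hex : ∀ x y : A, ∃ D : L, f D = t ∧ (∀ e, D ≤ E x y e) ∧
      (∀ l, (∀ e, l ≤ E x y e) → l ≤ D) ∧
      ∀ Y l : L, (∀ x y, f x = t → f y = t → (x ⊓ y) ⊔ Y = (x ⊔ Y) ⊓ (y ⊔ Y)) →
        (∀ e, l ≤ E x y e ⊔ Y) → l ≤ D ⊔ Y := by
    intro x y
    have h1 : Finite (S (x.1.1 ⊓ y.1.1)).X := (S _).fin
    have h2 : Nonempty (S (x.1.1 ⊓ y.1.1)).X := (S _).ne
    exact le_inf_sup (f := f) (s := t) (E x y) (hE x y)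
  choose δ hδf hδle hδglb hδsup using hex
  have hsymm1 : ∀ x y, δ x y ≤ δ y x := by
    intro x y
    refine hδglb y x _ fun e => ?_
    have hle : y.1.1 ⊓ x.1.1 ≤ x.1.1 ⊓ y.1.1 := le_of_eq (inf_comm _ _)
    have h1 := hδle x y (J (x.1.1 ⊓ y.1.1) (y.1.1 ⊓ x.1.1) e)
    change δ x y ≤ (S x.1.1).d x.2 (J x.1.1 (x.1.1 ⊓ y.1.1) _) ⊔
      (S y.1.1).d (J y.1.1 (x.1.1 ⊓ y.1.1) _) y.2 ⊔ lo t at h1
    rw [(hJ _ x.1.2).comp _ _ hle inf_le_left, (hJ _ y.1.2).comp _ _ hle inf_le_right] at h1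
    show δ x y ≤ (S y.1.1).d y.2 _ ⊔ (S x.1.1).d _ x.2 ⊔ lo t
    rw [(S y.1.1).symm y.2, (S x.1.1).symm _ x.2, sup_comm ((S y.1.1).d _ _)]
    exact h1
  have htri : ∀ x y z, δ x z ≤ δ x y ⊔ δ y z := by
    intro x y z
    have hd' := hd ⟨x.1.1, x.1.2⟩
    refine hδsup x y (δ y z) (δ x z) (fun u v hu hv => hd' u v _ hu hv (hδf y z)) fun e => ?_
    rw [sup_comm]
    refine hδsup y z (E x y e) (δ x z) (fun u v hu hv => hd' u v _ hu hv (hE x y e)) fun e' => ?_
    have key := tri_key (S := S) (J := J) hlo hflo x.1.2.le y.1.2.le z.1.2.le (hJ _ x.1.2)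
      (hJ _ y.1.2) (hJ _ z.1.2) (q := x.1.1 ⊓ y.1.1) (q' := y.1.1 ⊓ z.1.1) inf_le_left
      inf_le_right inf_le_left inf_le_right (hc _ _ _ inf_le_right inf_le_left) e e' x.2 z.2 (δ x z)
      (fun g => hδle x z g)
    refine key.trans (sup_le (sup_le (sup_le ?_ ?_) ?_) ?_)
    · exact (le_sup_left.trans le_sup_left).trans le_sup_right
    · refine ((S y.1.1).tri _ y.2 _).trans (sup_le ?_ ?_)
      · exact (le_sup_right.trans le_sup_left).trans le_sup_right
      · exact (le_sup_left.trans le_sup_left).trans le_sup_left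
    · exact (le_sup_right.trans le_sup_left).trans le_sup_left
    · exact le_sup_right.trans le_sup_right
  have hcomp0 : ∀ (q r : K) (hq : q < t) (hr : r < t), q ≤ r → ∀ a : (S q).X,
      δ ⟨⟨r, hr⟩, J r q a⟩ ⟨⟨q, hq⟩, a⟩ = lo t := by
    intro q r hq hr hqr a
    apply le_antisymm
    · have h1 := hδle ⟨⟨r, hr⟩, J r q a⟩ ⟨⟨q, hq⟩, a⟩ (J (r ⊓ q) q a)
      refine h1.trans ?_
      show (S r).d (J r q a) (J r (r ⊓ q) (J (r ⊓ q) q a)) ⊔
        (S q).d (J q (r ⊓ q) (J (r ⊓ q) q a)) a ⊔ lo t ≤ lo t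
      have hle : q ≤ r ⊓ q := le_inf hqr le_rfl
      rw [(hJ r hr).comp _ _ hle inf_le_left, (hJ q hq).comp _ _ hle inf_le_right,
        (hJ q hq).refl, ((S r).self _ _).2 rfl, ((S q).self _ _).2 rfl]
      exact sup_le (sup_le (hlot _ _ hr.le) (hlot _ _ hq.le)) le_rfl
    · exact hlo t _ (hδf _ _).ge
  have hself : ∀ x, δ x x = lo t := by
    rintro ⟨⟨r, hr⟩, a⟩
    have := hcomp0 r r hr hr le_rfl a
    rwa [(hJ r hr).refl] at this
  obtain ⟨i, hi⟩ := hU A le_rfl δ hδf hself (fun x y => le_antisymm (hsymm1 x y) (hsymm1 y x)) htri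
  have hne : Nonempty (S t).X := (S t).ne
  let new : ∀ r, (S r).X → (S t).X := fun r a =>
    if h : r < t then i ⟨⟨r, h⟩, a⟩ else if h' : r = t then h' ▸ a else Classical.arbitrary _
  have new_lt : ∀ r (h : r < t) a, new r a = i ⟨⟨r, h⟩, a⟩ := fun r h a => dif_pos h
  have new_self : ∀ a, new t a = a := by
    intro a
    show (if h : t < t then i ⟨⟨t, h⟩, a⟩ else if h' : t = t then h' ▸ a
      else Classical.arbitrary _) = a
    rw [dif_neg (lt_irrefl t), dif_pos rfl]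
  let J' : ∀ t r, (S r).X → (S t).X := Function.update J t new
  have hJt : J' t = new := Function.update_self _ _ _
  have hJr : ∀ r, r ≠ t → J' r = J r := fun r h => Function.update_of_ne h _ _
  have hcomp : ∀ q r, q ≤ r → r ≤ t → ∀ a, J' t r (J' r q a) = J' t q a := by
    intro q r hqr hrt a
    rcases eq_or_lt_of_le hrt with rfl | hr
    · rw [hJt, new_self]
    · have hq : q < t := hqr.trans_lt hr
      rw [hJt, hJr r hr.ne, new_lt r hr, new_lt q hq]
      apply ((S t).self _ _).1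
      rw [hi]
      exact hcomp0 q r hq hr hqr a
  refine ⟨J', hJr, ⟨fun a => by rw [hJt]; exact new_self a, hcomp, ?_, ?_⟩⟩
  · intro r hrt a a'
    rcases eq_or_lt_of_le hrt with rfl | hr
    · rw [hJt, new_self, new_self]
      exact (sup_eq_left.2 (hlo _ _ ((S _).fd _ _).ge)).symm
    · rw [hJt, new_lt r hr, new_lt r hr, hi]
      apply le_antisymm
      · refine (hδle _ _ (J (r ⊓ r) r a')).trans ?_
        show (S r).d a (J r (r ⊓ r) (J (r ⊓ r) r a')) ⊔
          (S r).d (J r (r ⊓ r) (J (r ⊓ r) r a')) a' ⊔ lo t ≤ _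
        rw [(hJ r hr).comp _ _ (le_inf le_rfl le_rfl) inf_le_left, (hJ r hr).refl,
          ((S r).self a' a').2 rfl]
        exact sup_le (sup_le le_sup_left ((hlot _ _ hrt).trans le_sup_right)) le_sup_right
      · refine hδglb _ _ _ fun e => ?_
        exact sup_le_sup_right ((S r).tri _ _ _) _
  · intro r r' hr hr' a a' l h
    have hmeet : ∀ s, s ≤ t → lo s ≤ (S t).d (J' t r a) (J' t r' a') := by
      intro s hs
      exact hlo s _ (by rw [(S t).fd]; exact hs)
    rcases eq_or_lt_of_le hr with hreq | hrlt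
    · subst hreq
      have hle : r' ≤ r ⊓ r' := le_inf hr' le_rfl
      have h1 := h (J' (r ⊓ r') r' a')
      rw [hcomp _ _ hle inf_le_left] at h1
      have h2 : J' r' (r ⊓ r') (J' (r ⊓ r') r' a') = a' := by
        rcases eq_or_lt_of_le hr' with h3 | h3
        · subst h3
          rw [hcomp _ _ hle inf_le_left, hJt, new_self]
        · rw [hJr r' h3.ne]
          have h4 : r ⊓ r' < r := lt_of_le_of_lt inf_le_right h3
          rw [hJr _ h4.ne, (hJ r' h3).comp _ _ hle inf_le_right, (hJ r' h3).refl]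
      rw [h2, ((S r').self a' a').2 rfl] at h1
      refine h1.trans (sup_le (sup_le ?_ (hmeet _ hr')) (hmeet _ le_rfl))
      rw [hJt, new_self]
    · rcases eq_or_lt_of_le hr' with hreq | hrlt'
      · subst hreq
        have hle : r ≤ r ⊓ r' := le_inf le_rfl hr
        have h4 : r ⊓ r' < r' := lt_of_le_of_lt inf_le_left hrlt
        have h1 := h (J' (r ⊓ r') r a)
        rw [hcomp _ _ hle inf_le_right] at h1
        have h2 : J' r (r ⊓ r') (J' (r ⊓ r') r a) = a := by
          rw [hJr r hrlt.ne, hJr _ h4.ne, (hJ r hrlt).comp _ _ hle inf_le_left, (hJ r hrlt).refl]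
        rw [h2, ((S r).self a a).2 rfl] at h1
        refine h1.trans (sup_le (sup_le (hmeet _ hr) ?_) (hmeet _ le_rfl))
        rw [hJt, new_self]
      · rw [hJt, new_lt r hrlt, new_lt r' hrlt', hi]
        refine hδglb _ _ _ fun e => ?_
        have h1 := h e
        rw [hJr r hrlt.ne, hJr r' hrlt'.ne] at h1
        exact h1

end Good

end Vale.Agent.P183.H330
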