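import Mathlib.Order.Hom.Lattice
import Mathlib.Data.Finite.Prod
import Mathlib.Data.Fintype.Pi
import Mathlib.Data.Fintype.Card
import Mathlib.SetTheory.Cardinal.NatCard
import Mathlib.Logic.Equiv.Fintype
import Mathlib.GroupTheory.Perm.Basic
import Mathlib.Order.Preorder.Finite

/-!
Finite homogeneous spaces with a distance in a finite distributive lattice (a fibre of a lattice
homomorphism).
-/

namespace Vale.Agent.P183.H330

variable {L K : Type} [Lattice L] [Lattice K]

/-- A finite nonempty space with a distance in the fibre of `f` over `t`. -/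
structure Sp (f : LatticeHom L K) (lo : K → L) (t : K) where
  X : Type
  fin : Finite X
  ne : Nonempty X
  d : X → X → L
  fd : ∀ x y, f (d x y) = t
  self : ∀ x y, d x y = lo t ↔ x = y
  symm : ∀ x y, d x y = d y x
  tri : ∀ x y z, d x z ≤ d x y ⊔ d y z

namespace Sp

variable {f : LatticeHom L K} {lo : K → L} {t : K}

/-- Partial isometries extend. -/
def Homog (S : Sp f lo t) : Prop :=
  ∀ (A : Set S.X) (σ : S.X → S.X), (∀ a ∈ A, ∀ b ∈ A, S.d (σ a) (σ b) = S.d a b) →
    ∃ g : Equiv.Perm S.X, (∀ a b, S.d (g a) (g b) = S.d a b) ∧ ∀ a ∈ A, g a = σ a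

/-- Enough triangles. -/
def Tri (S : Sp f lo t) : Prop :=
  ∀ (x y : S.X) (e : L), f e = t → ∃ z, S.d x z = e ∧ S.d y z = S.d x y ⊔ e

/-- Universal for pseudometric spaces with at most `n` points. -/
def Univ (S : Sp f lo t) (n : ℕ) : Prop :=
  ∀ (A : Type) [Finite A], Nat.card A ≤ n → ∀ δ : A → A → L, (∀ a b, f (δ a b) = t) →
    (∀ a, δ a a = lo t) → (∀ a b, δ a b = δ b a) → (∀ a b c, δ a c ≤ δ a b ⊔ δ b c) →
    ∃ i : A → S.X, ∀ a b, S.d (i a) (i b) = δ a b

end Sp

section Build

variable {f : LatticeHom L K} {lo hi : K → L}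

/-- The prime elements of the fibre over `t`. -/
def MP (f : LatticeHom L K) (t : K) : Type :=
  {m : L // f m = t ∧ (∀ x y, f x = t → f y = t → x ⊓ y ≤ m → x ≤ m ∨ y ≤ m) ∧
    ∃ x, f x = t ∧ ¬ x ≤ m}

theorem exists_prime [Finite L] {t : K}
    (hdist : ∀ x y z, f x = t → f y = t → f z = t → (x ⊓ y) ⊔ z = (x ⊔ z) ⊓ (y ⊔ z))
    {x b : L} (hx : f x = t) (hb : f b = t) (hxb : ¬ x ≤ b) : ∃ m : MP f t, b ≤ m.1 ∧ ¬ x ≤ m.1 := by
  obtain ⟨m, hm, hmax⟩ := (Set.toFinite {m | f m = t ∧ b ≤ m ∧ ¬ x ≤ m}).exists_maximal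
    ⟨b, hb, le_refl b, hxb⟩
  have hfm : f m = t := hm.1
  have key : ∀ y, f y = t → ¬ y ≤ m → x ≤ y ⊔ m := by
    intro y hy hym
    by_contra hc
    have h1 : f (y ⊔ m) = t := by rw [map_sup, hy, hfm, sup_idem]
    have h2 := hmax ⟨h1, hm.2.1.trans le_sup_right, hc⟩ le_sup_right
    exact hym (le_sup_left.trans h2)
  refine ⟨⟨m, hfm, ?_, x, hx, hm.2.2⟩, hm.2.1, hm.2.2⟩
  intro y z hy hz hyz
  by_contra hc
  push Not at hc
  have h1 := key y hy hc.1
  have h2 := key z hz hc.2
  have h3 : x ≤ (y ⊓ z) ⊔ m := by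
    rw [hdist y z m hy hz hfm]
    exact le_inf h1 h2
  exact hm.2.2 (h3.trans (sup_le hyz le_rfl))

/-- The least element of the fibre which is forced by a set of coordinates. -/
theorem exists_dist [Finite L] {t : K} (hlo : ∀ k, f (hi k) = k) (Q : MP f t → Prop)
    (hhi : ∀ l, l ≤ hi (f l)) :
    ∃ d : L, f d = t ∧ ∀ b, f b = t → (d ≤ b ↔ ∀ m : MP f t, b ≤ m.1 → Q m) := by
  obtain ⟨d, hd, hmin⟩ := (Set.toFinite {b | f b = t ∧ ∀ m : MP f t, b ≤ m.1 → Q m}).exists_minimal
    ⟨hi t, hlo t, fun m hm => by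
      obtain ⟨x, hx, hxm⟩ := m.2.2.2
      have h1 : x ≤ hi t := by
        have := hhi x
        rwa [hx] at this
      exact absurd (h1.trans hm) hxm⟩
  refine ⟨d, hd.1, fun b hb => ⟨fun h m hm => hd.2 m (h.trans hm), fun h => ?_⟩⟩
  have h1 : f (d ⊓ b) = t := by rw [map_inf, hd.1, hb, inf_idem]
  have h2 : ∀ m : MP f t, d ⊓ b ≤ m.1 → Q m := by
    intro m hm
    rcases m.2.2.1 d b hd.1 hb hm with h3 | h3
    · exact hd.2 m h3
    · exact h m h3
  exact (hmin ⟨h1, h2⟩ inf_le_left).trans inf_le_right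

theorem exists_perm_extends {Z : Type} [Finite Z] (R : Set (Z × Z))
    (h : ∀ p ∈ R, ∀ q ∈ R, p.1 = q.1 ↔ p.2 = q.2) : ∃ τ : Equiv.Perm Z, ∀ p ∈ R, τ p.1 = p.2 := by
  classical
  have := Fintype.ofFinite Z
  let P : Z → Prop := fun x => ∃ y, (x, y) ∈ R
  let Q : Z → Prop := fun y => ∃ x, (x, y) ∈ R
  let e0 : {x // P x} → {y // Q y} := fun x => ⟨x.2.choose, x.1, x.2.choose_spec⟩
  have he : ∀ x : {x // P x}, (x.1, (e0 x).1) ∈ R := fun x => x.2.choose_spec
  have hb : Function.Bijective e0 := by
    constructor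
    · intro x y hxy
      apply Subtype.ext
      exact (h _ (he x) _ (he y)).2 (congrArg Subtype.val hxy)
    · rintro ⟨y, x, hxy⟩
      refine ⟨⟨x, y, hxy⟩, ?_⟩
      apply Subtype.ext
      exact (h _ (he ⟨x, y, hxy⟩) _ hxy).1 rfl
  refine ⟨(Equiv.ofBijective e0 hb).extendSubtype, ?_⟩
  rintro ⟨x, y⟩ hp
  rw [Equiv.extendSubtype_apply_of_mem _ x ⟨y, hp⟩]
  exact (h _ (he ⟨x, y, hp⟩) _ hp).1 rfl

theorem exists_sp [Finite L] {t : K} (hflo : ∀ k, f (lo k) = k) (hfhi : ∀ k, f (hi k) = k)
    (hlo : ∀ l, lo (f l) ≤ l) (hhi : ∀ l, l ≤ hi (f l))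
    (hdist : ∀ x y z, f x = t → f y = t → f z = t → (x ⊓ y) ⊔ z = (x ⊔ z) ⊓ (y ⊔ z)) (n : ℕ) :
    ∃ S : Sp f lo t, S.Homog ∧ S.Tri ∧ S.Univ n := by
  classical
  have hMfin : Finite (MP f t) := inferInstanceAs (Finite {m : L // _})
  have hprime : ∀ e b, f e = t → f b = t → (∀ m : MP f t, b ≤ m.1 → e ≤ m.1) → e ≤ b := by
    intro e b he hb h
    by_contra hc
    obtain ⟨m, hm1, hm2⟩ := exists_prime hdist he hb hc
    exact hm2 (h m hm1)
  have hlo' : ∀ l, f l = t → lo t ≤ l := by
    intro l hl
    have := hlo l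
    rwa [hl] at this
  let X : Type := MP f t → Fin (n + 3)
  have hXfin : Finite X := inferInstanceAs (Finite (MP f t → Fin (n + 3)))
  have hex : ∀ v w : X, ∃ d : L, f d = t ∧ ∀ b, f b = t →
      (d ≤ b ↔ ∀ m : MP f t, b ≤ m.1 → v m = w m) := fun v w =>
    exists_dist hfhi (fun m => v m = w m) hhi
  choose dd hfd hdd using hex
  have hext : ∀ v w e, f e = t → (∀ b, f b = t → ((∀ m : MP f t, b ≤ m.1 → v m = w m) ↔ e ≤ b)) →
      dd v w = e := by
    intro v w e he h
    apply le_antisymm
    · exact (hdd v w e he).2 ((h e he).2 le_rfl)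
    · exact (h _ (hfd v w)).1 ((hdd v w _ (hfd v w)).1 le_rfl)
  let S : Sp f lo t :=
    { X := X
      fin := hXfin
      ne := ⟨fun _ => 0⟩
      d := dd
      fd := hfd
      self := by
        intro v w
        constructor
        · intro h
          funext m
          exact (hdd v w (lo t) (hflo t)).1 h.le m (hlo' m.1 m.2.1)
        · rintro rfl
          apply le_antisymm
          · exact (hdd v v (lo t) (hflo t)).2 fun _ _ => rfl
          · exact hlo' _ (hfd v v)
      symm := by
        intro v w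
        apply hext v w _ (hfd w v)
        intro b hb
        rw [hdd w v b hb]
        exact forall_congr' fun m => forall_congr' fun _ => eq_comm
      tri := by
        intro u v w
        have hb : f (dd u v ⊔ dd v w) = t := by rw [map_sup, hfd, hfd, sup_idem]
        refine (hdd u w _ hb).2 fun m hm => ?_
        exact ((hdd u v _ (hfd u v)).1 le_rfl m (le_sup_left.trans hm)).trans
          ((hdd v w _ (hfd v w)).1 le_rfl m (le_sup_right.trans hm)) }
  refine ⟨S, ?_, ?_, ?_⟩
  · -- homogeneity
    intro A σ hσ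
    let R : MP f t → X → Set (Fin (n + 3) × Fin (n + 3)) := fun m v =>
      {p | ∃ a ∈ A, (∀ m' : MP f t, m.1 < m'.1 → a m' = v m') ∧ p = (a m, σ a m)}
    have hR : ∀ m v w, (∀ m' : MP f t, m.1 < m'.1 → v m' = w m') → R m v = R m w := by
      intro m v w h
      ext p
      constructor
      · rintro ⟨a, ha, h1, rfl⟩
        exact ⟨a, ha, fun m' hm' => (h1 m' hm').trans (h m' hm'), rfl⟩
      · rintro ⟨a, ha, h1, rfl⟩
        exact ⟨a, ha, fun m' hm' => (h1 m' hm').trans (h m' hm').symm, rfl⟩
    have hch : ∀ R : Set (Fin (n + 3) × Fin (n + 3)), ∃ τ : Equiv.Perm (Fin (n + 3)),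
        (∀ p ∈ R, ∀ q ∈ R, p.1 = q.1 ↔ p.2 = q.2) → ∀ p ∈ R, τ p.1 = p.2 := by
      intro R
      by_cases h : ∀ p ∈ R, ∀ q ∈ R, p.1 = q.1 ↔ p.2 = q.2
      · obtain ⟨τ, hτ⟩ := exists_perm_extends R h
        exact ⟨τ, fun _ => hτ⟩
      · exact ⟨1, fun h' => absurd h' h⟩
    choose F hF using hch
    let g : X → X := fun v m => F (R m v) (v m)
    have hgagree : ∀ v w b, (∀ m : MP f t, b ≤ m.1 → g v m = g w m) ↔
        (∀ m : MP f t, b ≤ m.1 → v m = w m) := by
      intro v w b
      constructor
      · intro h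
        have wf : WellFounded (fun a b : MP f t => b.1 < a.1) := by
          have : WellFounded (fun a b : L => b < a) := (inferInstance : WellFoundedGT L).wf
          exact InvImage.wf (fun m : MP f t => m.1) this
        intro m
        induction m using wf.induction with
        | _ m ih =>
          intro hm
          have h1 : R m v = R m w := hR m v w fun m' hm' => ih m' hm' (hm.trans hm'.le)
          have h2 : F (R m v) (v m) = F (R m w) (w m) := h m hm
          rw [h1] at h2
          exact (F (R m w)).injective h2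
      · intro h m hm
        have h1 : R m v = R m w := hR m v w fun m' hm' => h m' (hm.trans hm'.le)
        show F (R m v) (v m) = F (R m w) (w m)
        rw [h1, h m hm]
    have hgd : ∀ v w, dd (g v) (g w) = dd v w := by
      intro v w
      apply hext _ _ _ (hfd v w)
      intro b hb
      rw [hgagree, hdd v w b hb]
    have hginj : Function.Injective g := by
      intro v w hvw
      have h1 : dd (g v) (g w) = lo t := (S.self _ _).2 hvw
      rw [hgd] at h1
      exact (S.self _ _).1 h1
    have hgbij : Function.Bijective g := Finite.injective_iff_bijective.1 hginj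
    refine ⟨Equiv.ofBijective g hgbij, fun a b => hgd a b, ?_⟩
    intro a ha
    funext m
    show F (R m a) (a m) = σ a m
    refine hF (R m a) ?_ (a m, σ a m) ⟨a, ha, fun _ _ => rfl, rfl⟩
    rintro _ ⟨b, hb, hb1, rfl⟩ _ ⟨c, hc, hc1, rfl⟩
    have hagree : ∀ m' : MP f t, m.1 < m'.1 → b m' = c m' := fun m' hm' =>
      (hb1 m' hm').trans (hc1 m' hm').symm
    have hσagree : ∀ m' : MP f t, m.1 < m'.1 → σ b m' = σ c m' := by
      intro m' hm'
      have h1 : dd b c ≤ m'.1 := (hdd b c _ m'.2.1).2 fun m'' hm'' => hagree m'' (hm'.trans_le hm'')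
      have h2 : dd (σ b) (σ c) ≤ m'.1 := by
        have := hσ b hb c hc
        change dd (σ b) (σ c) = dd b c at this
        rw [this]; exact h1
      exact (hdd _ _ _ m'.2.1).1 h2 m' le_rfl
    have hiff : ∀ u v : X, (∀ m' : MP f t, m.1 < m'.1 → u m' = v m') →
        (u m = v m ↔ dd u v ≤ m.1) := by
      intro u v h
      rw [hdd u v _ m.2.1]
      constructor
      · intro h1 m' hm'
        rcases eq_or_lt_of_le hm' with h2 | h2
        · have : m = m' := Subtype.ext h2
          rw [← this]; exact h1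
        · exact h m' h2
      · intro h1
        exact h1 m le_rfl
    show b m = c m ↔ σ b m = σ c m
    rw [hiff b c hagree, hiff (σ b) (σ c) hσagree]
    have := hσ b hb c hc
    change dd (σ b) (σ c) = dd b c at this
    rw [this]
  · -- triangles
    intro x y e he
    have h3 : ∀ a b : Fin (n + 3), ∃ c, c ≠ a ∧ c ≠ b := by
      intro a b
      by_contra hc
      push Not at hc
      have h0 := hc ⟨0, by omega⟩
      have h1 := hc ⟨1, by omega⟩
      have h2 := hc ⟨2, by omega⟩
      simp only [ne_eq, Fin.ext_iff] at h0 h1 h2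
      by_cases ha0 : (0 : ℕ) = a.1
      · have := h1 (by omega)
        have := h2 (by omega)
        omega
      · have := h0 ha0
        by_cases ha1 : (1 : ℕ) = a.1
        · have := h2 (by omega)
          omega
        · have := h1 ha1
          omega
    choose c hc1 hc2 using h3
    let z : X := fun m => if e ≤ m.1 then x m else c (x m) (y m)
    have hz1 : ∀ m, x m = z m ↔ e ≤ m.1 := by
      intro m
      by_cases h : e ≤ m.1
      · simp only [z, if_pos h, h]
      · simp only [z, if_neg h, h, iff_false]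
        exact (hc1 (x m) (y m)).symm
    have hz2 : ∀ m, y m = z m ↔ (x m = y m ∧ e ≤ m.1) := by
      intro m
      by_cases h : e ≤ m.1
      · simp only [z, if_pos h, h, and_true]
        exact eq_comm
      · simp only [z, if_neg h, h, and_false, iff_false]
        exact (hc2 (x m) (y m)).symm
    refine ⟨z, ?_, ?_⟩
    · apply hext _ _ _ he
      intro b hb
      constructor
      · intro h
        exact hprime e b he hb fun m hm => (hz1 m).1 (h m hm)
      · intro h m hm
        exact (hz1 m).2 (h.trans hm)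
    · have hj : f (dd x y ⊔ e) = t := by rw [map_sup, hfd, he, sup_idem]
      apply hext _ _ _ hj
      intro b hb
      rw [sup_le_iff, hdd x y b hb]
      constructor
      · intro h
        exact ⟨fun m hm => ((hz2 m).1 (h m hm)).1,
          hprime e b he hb fun m hm => ((hz2 m).1 (h m hm)).2⟩
      · rintro ⟨h1, h2⟩ m hm
        exact (hz2 m).2 ⟨h1 m hm, h2.trans hm⟩
  · -- universality
    intro A _ hcard δ hfδ hself hsymm htri
    have := Fintype.ofFinite A
    have hinj : ∃ c : A → Fin (n + 3), Function.Injective c := by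
      have h1 : Fintype.card A ≤ Fintype.card (Fin (n + 3)) := by
        rw [Fintype.card_fin, ← Nat.card_eq_fintype_card]
        omega
      obtain ⟨e⟩ := Function.Embedding.nonempty_of_card_le h1
      exact ⟨e, e.injective⟩
    obtain ⟨c, hc⟩ := hinj
    let s : MP f t → Setoid A := fun m =>
      { r := fun a b => δ a b ≤ m.1
        iseqv := ⟨fun a => by rw [hself]; exact hlo' _ m.2.1,
          fun {a b} h => by rw [hsymm]; exact h,
          fun {a b c} h h' => (htri a b c).trans (sup_le h h')⟩ }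
    let i : A → X := fun a m => c (Quotient.mk (s m) a).out
    have hi : ∀ a b m, i a m = i b m ↔ δ a b ≤ m.1 := by
      intro a b m
      constructor
      · intro h
        have h1 := hc h
        have h2 : Quotient.mk (s m) a = Quotient.mk (s m) b := by
          rw [← Quotient.out_eq (Quotient.mk (s m) a), h1, Quotient.out_eq]
        exact Quotient.exact h2
      · intro h
        have h2 : Quotient.mk (s m) a = Quotient.mk (s m) b := Quotient.sound h
        show c _ = c _
        rw [h2]
    refine ⟨i, fun a b => ?_⟩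
    apply hext _ _ _ (hfδ a b)
    intro l hl
    constructor
    · intro h
      exact hprime _ l (hfδ a b) hl fun m hm => (hi a b m).1 (h m hm)
    · intro h m hm
      exact (hi a b m).2 (h.trans hm)

end Build

end Vale.Agent.P183.H330
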